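import Crest.Agent.R084.Calc

/-! Tomita–Takesaki, part 1: the functional calculus of `log ((2 - R) / R)`. -/

set_option autoImplicit false

namespace Crest.Agent.TT

open Crest.OpAlg Crest.OpAlg.LineCalculus Crest.Agent.R084 Filter
open scoped BoundedContinuousFunction Topology InnerProductSpace ComplexConjugate

variable {H : Type*} [NormedAddCommGroup H] [InnerProductSpace ℂ H] [CompleteSpace H]
  {H' : Type*} [NormedAddCommGroup H'] [InnerProductSpace ℂ H'] [CompleteSpace H']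

/-- a real bounded continuous function, as a complex one -/
noncomputable def bc (f : ℝ → ℝ) (hf : Continuous f) (C : ℝ) (hC : ∀ u, |f u| ≤ C) : ℝ →ᵇ ℂ :=
  BoundedContinuousFunction.ofNormedAddCommGroup (fun u => (f u : ℂ)) (by fun_prop) C fun u => by simpa using hC u

@[simp] lemma bc_apply (f : ℝ → ℝ) (hf : Continuous f) (C : ℝ) (hC : ∀ u, |f u| ≤ C) (u : ℝ) :
    bc f hf C hC u = (f u : ℂ) := rfl

lemma one_add_exp_pos (u : ℝ) : 0 < 1 + Real.exp u := by positivity

/-- `2 / (1 + e^u)` -/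
noncomputable def rhoF : ℝ →ᵇ ℂ :=
  bc (fun u => 2 / (1 + Real.exp u))
    (continuous_const.div (by fun_prop) fun u => (one_add_exp_pos u).ne') 2 fun u => by
    rw [abs_of_pos (by positivity), div_le_iff₀ (one_add_exp_pos u)]
    nlinarith [Real.exp_pos u]

lemma exp_eq_sq (u : ℝ) : Real.exp u = Real.exp (u / 2) ^ 2 := by
  rw [sq, ← Real.exp_add, add_halves]

/-- `2 e^{u/2} / (1 + e^u)` -/
noncomputable def tauF : ℝ →ᵇ ℂ :=
  bc (fun u => 2 * Real.exp (u / 2) / (1 + Real.exp u))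
    ((by fun_prop : Continuous fun u : ℝ => 2 * Real.exp (u / 2)).div (by fun_prop)
      fun u => (one_add_exp_pos u).ne') 1 fun u => by
    rw [abs_of_pos (by positivity), div_le_iff₀ (one_add_exp_pos u), exp_eq_sq u]
    nlinarith [sq_nonneg (Real.exp (u / 2) - 1)]

lemma rhoF_apply (u : ℝ) : rhoF u = ((2 / (1 + Real.exp u) : ℝ) : ℂ) := rfl

lemma tauF_apply (u : ℝ) : tauF u = ((2 * Real.exp (u / 2) / (1 + Real.exp u) : ℝ) : ℂ) := rfl

lemma rhoF_ne (u : ℝ) : rhoF u ≠ 0 := by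
  rw [rhoF_apply]; exact Complex.ofReal_ne_zero.2 (by positivity)

lemma tauF_ne (u : ℝ) : tauF u ≠ 0 := by
  rw [tauF_apply]; exact Complex.ofReal_ne_zero.2 (by positivity)

lemma star_rhoF : star rhoF = rhoF := by
  ext u; simp only [BoundedContinuousFunction.star_apply, rhoF_apply, Complex.star_def,
    Complex.conj_ofReal]

lemma star_tauF : star tauF = tauF := by
  ext u; simp only [BoundedContinuousFunction.star_apply, tauF_apply, Complex.star_def,
    Complex.conj_ofReal]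

lemma tauF_eq (u : ℝ) : tauF u = rhoF u * ((Real.exp (u / 2) : ℝ) : ℂ) := by
  rw [tauF_apply, rhoF_apply, ← Complex.ofReal_mul]; congr 1; ring

lemma rhoF_neg (u : ℝ) : rhoF (-u) = 2 - rhoF u := by
  rw [rhoF_apply, rhoF_apply, Real.exp_neg]
  have := Real.exp_pos u
  have h : (2 / (1 + (Real.exp u)⁻¹) : ℝ) = 2 - 2 / (1 + Real.exp u) := by field_simp; ring
  rw [h]; push_cast; ring

lemma tauF_neg (u : ℝ) : tauF (-u) = tauF u := by
  rw [tauF_apply, tauF_apply, neg_div, Real.exp_neg, Real.exp_neg, exp_eq_sq u]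
  have := Real.exp_pos (u / 2)
  congr 1; field_simp; ring

lemma two_sub_rhoF (u : ℝ) : 2 - rhoF u = tauF u * ((Real.exp (u / 2) : ℝ) : ℂ) := by
  rw [tauF_apply, rhoF_apply, ← Complex.ofReal_mul, ← Complex.ofReal_ofNat, ← Complex.ofReal_sub,
    exp_eq_sq u]
  congr 1; field_simp; ring

lemma tauF_mul_tauF : tauF * tauF = rhoF * (2 - rhoF) := by
  ext u
  have h : (2 - rhoF : ℝ →ᵇ ℂ) u = 2 - rhoF u := rfl
  rw [BoundedContinuousFunction.mul_apply, BoundedContinuousFunction.mul_apply, h, two_sub_rhoF]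
  nth_rewrite 1 [tauF_eq]
  ring

/-- reflection of a function -/
noncomputable def negF (f : ℝ →ᵇ ℂ) : ℝ →ᵇ ℂ := f.compContinuous ⟨Neg.neg, continuous_neg⟩

@[simp] lemma negF_apply (f : ℝ →ᵇ ℂ) (u : ℝ) : negF f u = f (-u) := rfl

/-- the calculus of `-D` -/
noncomputable def negD (D : LineCalculus H) : LineCalculus H where
  apply :=
    { toFun := fun f => D.apply (negF f)
      map_one' := by rw [← map_one D.apply]; rfl
      map_mul' := fun f g => by rw [← map_mul]; rfl
      map_zero' := by rw [← map_zero D.apply]; rfl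
      map_add' := fun f g => by rw [← map_add]; rfl
      commutes' := fun c => by rw [← AlgHomClass.commutes D.apply c]; rfl
      map_star' := fun f => by rw [← map_star]; rfl }
  window x ε hε := by
    obtain ⟨f, hf, h⟩ := D.window x ε hε
    refine ⟨negF f, hf.comp_homeomorph (Homeomorph.neg ℝ), ?_⟩
    have : negF (negF f) = f := by ext u; simp
    change ‖D.apply (negF (negF f)) x - x‖ < ε
    rwa [this]

lemma negD_apply (D : LineCalculus H) (f : ℝ →ᵇ ℂ) : (negD D).apply f = D.apply (negF f) := rfl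

/-- `F / f` for compactly supported `F` -/
noncomputable def divF (F : ℝ →ᵇ ℂ) (hF : HasCompactSupport (F : ℝ → ℂ)) (f : ℝ →ᵇ ℂ)
    (hf : ∀ u, f u ≠ 0) : ℝ →ᵇ ℂ :=
  ofCompactSupport (fun u => F u * (f u)⁻¹) (F.continuous.mul (f.continuous.inv₀ hf)) hF.mul_right

@[simp] lemma divF_apply (F : ℝ →ᵇ ℂ) (hF : HasCompactSupport (F : ℝ → ℂ)) (f : ℝ →ᵇ ℂ)
    (hf : ∀ u, f u ≠ 0) (u : ℝ) : divF F hF f hf u = F u * (f u)⁻¹ := rfl

lemma divF_mul (F : ℝ →ᵇ ℂ) (hF : HasCompactSupport (F : ℝ → ℂ)) (f : ℝ →ᵇ ℂ)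
    (hf : ∀ u, f u ≠ 0) : divF F hF f hf * f = F := by
  ext u; simp [hf u]

lemma app_eq_zero (D : LineCalculus H) {f : ℝ →ᵇ ℂ} (hf : ∀ u, f u ≠ 0) {x : H}
    (h : D.apply f x = 0) : x = 0 :=
  eq_zero_of_forall_compact D x fun F hF => by
    rw [← divF_mul F hF f hf, app_mul_apply, h, map_zero]

lemma app_injective (D : LineCalculus H) {f : ℝ →ᵇ ℂ} (hf : ∀ u, f u ≠ 0) :
    Function.Injective (D.apply f) :=
  (injective_iff_map_eq_zero _).2 fun _ h => app_eq_zero D hf h

lemma app_denseRange (D : LineCalculus H) {f : ℝ →ᵇ ℂ} (hf : ∀ u, f u ≠ 0) :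
    DenseRange (D.apply f) := by
  refine Metric.denseRange_iff.2 fun x ε hε => ?_
  obtain ⟨F, hF, h⟩ := D.window x ε hε
  refine ⟨D.apply (divF F hF f hf) x, ?_⟩
  rwa [← app_mul_apply, mul_comm, divF_mul, dist_comm, dist_eq_norm]

/-- the weight `r (2 - r)` cut off at `0` -/
noncomputable def mW (r : ℝ) : ℝ := max 0 (r * (2 - r))

lemma continuous_mW : Continuous mW := by unfold mW; fun_prop

/-- `f (log ((2 - r) / r)) r (2 - r)` -/
noncomputable def extF (f : ℝ →ᵇ ℂ) : C(ℝ, ℂ) where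
  toFun r := f (Real.log ((2 - r) / r)) * (mW r : ℂ)
  continuous_toFun := by
    refine continuous_iff_continuousAt.2 fun r => ?_
    have hm : Continuous fun r => (mW r : ℂ) := Complex.continuous_ofReal.comp continuous_mW
    by_cases h : mW r = 0
    · unfold ContinuousAt
      simp only [h, Complex.ofReal_zero, mul_zero]
      refine squeeze_zero_norm (a := fun s => ‖f‖ * ‖(mW s : ℂ)‖) (fun s => ?_) ?_
      · rw [norm_mul]; gcongr; exact f.norm_coe_le_norm _
      · have := (hm.norm.tendsto r).const_mul ‖f‖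
        simpa [h] using this
    · have h0 : r ≠ 0 := by rintro rfl; simp [mW] at h
      have h2 : 2 - r ≠ 0 := by intro e; simp [mW, e] at h
      refine ContinuousAt.mul (f.continuous.continuousAt.comp ?_) hm.continuousAt
      exact ((by fun_prop : ContinuousAt (fun r : ℝ => 2 - r) r).div continuousAt_id h0).log
        (div_ne_zero h2 h0)

lemma extF_apply (f : ℝ →ᵇ ℂ) (r : ℝ) :
    extF f r = f (Real.log ((2 - r) / r)) * (mW r : ℂ) := rfl

lemma log_rho (u : ℝ) : Real.log ((2 - 2 / (1 + Real.exp u)) / (2 / (1 + Real.exp u))) = u := by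
  have := Real.exp_pos u
  rw [show (2 - 2 / (1 + Real.exp u)) / (2 / (1 + Real.exp u)) = Real.exp u by field_simp; ring,
    Real.log_exp]

lemma rho_mem (u : ℝ) : 2 / (1 + Real.exp u) ∈ Set.Icc (0 : ℝ) 2 :=
  ⟨by positivity, by rw [div_le_iff₀ (one_add_exp_pos u)]; nlinarith [Real.exp_pos u]⟩

lemma mW_eq {r : ℝ} (hr : r ∈ Set.Icc (0 : ℝ) 2) : mW r = r * (2 - r) :=
  max_eq_right (mul_nonneg hr.1 (sub_nonneg.2 hr.2))

lemma extF_rho (f : ℝ →ᵇ ℂ) (u : ℝ) :
    extF f (2 / (1 + Real.exp u)) = (f * (tauF * tauF)) u := by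
  rw [extF_apply, log_rho, mW_eq (rho_mem u), tauF_mul_tauF]
  change _ = f u * (rhoF u * (2 - rhoF u))
  rw [rhoF_apply]; push_cast; ring

/-- Intertwining extends from `ρ` to all real functions. -/
theorem inter (D : LineCalculus H) (D' : LineCalculus H') (A : H →L[ℝ] H')
    (h : ∀ x, A (D.apply rhoF x) = D'.apply rhoF (A x)) {f : ℝ →ᵇ ℂ} (hf : star f = f) (x : H) :
    A (D.apply f x) = D'.apply f (A x) := by
  let S : Subalgebra ℝ (ℝ →ᵇ ℂ) :=
    { carrier := {f | ∀ x, A (D.apply f x) = D'.apply f (A x)}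
      mul_mem' := fun {f g} hf hg x => by rw [app_mul_apply, app_mul_apply, hf, hg]
      add_mem' := fun {f g} hf hg x => by
        rw [map_add, map_add, add_apply, add_apply, map_add, hf, hg]
      algebraMap_mem' := fun c x => by
        have : algebraMap ℝ (ℝ →ᵇ ℂ) c = (c : ℂ) • (1 : ℝ →ᵇ ℂ) := by ext u; simp
        rw [this, map_smul, map_smul, map_one, map_one, smul_apply, smul_apply, one_apply_eq_self,
          one_apply_eq_self, Complex.coe_smul, Complex.coe_smul, map_smul] }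
  have hc : IsClosed (S : Set (ℝ →ᵇ ℂ)) := by
    have : (S : Set (ℝ →ᵇ ℂ)) = ⋂ x, {f | A (appAt D x f) = appAt D' (A x) f} := by
      ext f; simp only [Set.mem_iInter]; rfl
    rw [this]
    exact isClosed_iInter fun x => isClosed_eq (by fun_prop) (by fun_prop)
  have key : ∀ f : ℝ →ᵇ ℂ, star f = f → f * (tauF * tauF) ∈ S := fun f hf => by
    refine hc.mem_iff_infDist_zero ⟨1, S.one_mem⟩ |>.2 (le_antisymm ?_ Metric.infDist_nonneg)
    refine le_of_forall_pos_le_add fun ε hε => ?_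
    obtain ⟨p, hp⟩ := exists_polynomial_near_of_continuousOn 0 2 (fun r => (extF f r).re)
      (Complex.continuous_re.comp (extF f).continuous).continuousOn ε hε
    have hm : Polynomial.aeval rhoF p ∈ S :=
      Algebra.adjoin_le (S := S) (s := {rhoF}) (by rintro _ rfl; exact h)
        (Polynomial.aeval_mem_adjoin_singleton ℝ rhoF)
    refine (Metric.infDist_le_dist_of_mem hm).trans ?_
    rw [zero_add, dist_comm, dist_eq_norm, BoundedContinuousFunction.norm_le hε.le]
    intro u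
    have e1 : (Polynomial.aeval rhoF p) u = ((p.eval (2 / (1 + Real.exp u)) : ℝ) : ℂ) := by
      clear hp hm
      induction p using Polynomial.induction_on' with
      | add p q h1 h2 =>
        rw [map_add, BoundedContinuousFunction.add_apply, h1, h2, Polynomial.eval_add,
          Complex.ofReal_add]
      | monomial n a =>
        rw [Polynomial.aeval_monomial, Polynomial.eval_monomial, Algebra.algebraMap_eq_smul_one]
        simp [rhoF_apply]
    have e2 : (f * (tauF * tauF)) u = (((extF f (2 / (1 + Real.exp u))).re : ℝ) : ℂ) := by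
      rw [extF_rho]
      refine (Complex.conj_eq_iff_re.1 ?_).symm
      have : star (f * (tauF * tauF)) = f * (tauF * tauF) := by
        rw [star_mul', star_mul', hf, star_tauF]
      exact congrArg (fun g : ℝ →ᵇ ℂ => g u) this
    rw [BoundedContinuousFunction.sub_apply, e1, e2, ← Complex.ofReal_sub, Complex.norm_real]
    exact (hp _ (rho_mem u)).le
  have hd := app_denseRange D (f := tauF * tauF) fun u => mul_ne_zero (tauF_ne u) (tauF_ne u)
  refine hd.induction_on x (isClosed_eq (by fun_prop) (by fun_prop)) fun y => ?_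
  have h1 := key 1 (star_one _) y
  rw [one_mul] at h1
  rw [← app_mul_apply, key f hf y, app_mul_apply, h1]

lemma split_re_im (f : ℝ →ᵇ ℂ) : ∃ g k : ℝ →ᵇ ℂ, star g = g ∧ star k = k ∧
    f = g + Complex.I • k ∧ star f = g - Complex.I • k := by
  refine ⟨(1 / 2 : ℂ) • (f + star f), (-Complex.I / 2) • (f - star f), ?_, ?_, ?_, ?_⟩
  · simp [add_comm]
  · rw [star_smul, star_sub, star_star, ← neg_sub f, smul_neg, ← neg_smul]
    congr 1; simp; ring
  · rw [smul_smul, show Complex.I * (-Complex.I / 2) = 1 / 2 by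
      rw [neg_div, mul_neg, ← mul_div_assoc, Complex.I_mul_I]; ring]
    module
  · rw [smul_smul, show Complex.I * (-Complex.I / 2) = 1 / 2 by
      rw [neg_div, mul_neg, ← mul_div_assoc, Complex.I_mul_I]; ring]
    module

/-- Complex-linear intertwiners. -/
theorem inter_lin (D : LineCalculus H) (D' : LineCalculus H') (A : H →L[ℂ] H')
    (h : ∀ x, A (D.apply rhoF x) = D'.apply rhoF (A x)) (f : ℝ →ᵇ ℂ) (x : H) :
    A (D.apply f x) = D'.apply f (A x) := by
  obtain ⟨g, k, hg, hk, rfl, -⟩ := split_re_im f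
  have h1 := inter D D' (A.restrictScalars ℝ) h hg x
  have h2 := inter D D' (A.restrictScalars ℝ) h hk x
  simp only [ContinuousLinearMap.coe_restrictScalars'] at h1 h2
  simp only [map_add, map_smul, add_apply, smul_apply, h1, h2]

/-- Conjugate-linear intertwiners. -/
theorem inter_conj (D : LineCalculus H) (D' : LineCalculus H') (A : H →L[ℝ] H')
    (hA : ∀ x, A (Complex.I • x) = -(Complex.I • A x))
    (h : ∀ x, A (D.apply rhoF x) = D'.apply rhoF (A x)) (f : ℝ →ᵇ ℂ) (x : H) :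
    A (D.apply f x) = D'.apply (star f) (A x) := by
  obtain ⟨g, k, hg, hk, e1, e2⟩ := split_re_im f
  rw [e2, e1]
  simp only [map_add, map_sub, map_smul, add_apply, sub_apply, smul_apply, hA, inter D D' A h hg,
    inter D D' A h hk]
  rw [sub_eq_add_neg]

/-- a cut-off function -/
noncomputable def cut (L : ℝ) : ℝ →ᵇ ℂ :=
  bc (fun u => max 0 (min 1 (L + 1 - |u|))) (by fun_prop) 1 fun u => by
    rw [abs_of_nonneg (le_max_left _ _)]; exact max_le zero_le_one (min_le_left _ _)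

lemma cut_compact (L : ℝ) : HasCompactSupport (cut L : ℝ → ℂ) := by
  refine HasCompactSupport.intro (isCompact_Icc (a := -(L + 1)) (b := L + 1)) fun u hu => ?_
  have : L + 1 - |u| ≤ 0 := by
    by_contra h
    exact hu (abs_le.1 (by linarith))
  simp only [cut, bc_apply]
  rw [max_eq_left ((min_le_right _ _).trans this), Complex.ofReal_zero]

lemma cut_eq_one {L u : ℝ} (h : |u| ≤ L) : cut L u = 1 := by
  simp only [cut, bc_apply]
  rw [min_eq_left (by linarith), max_eq_right zero_le_one, Complex.ofReal_one]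

lemma norm_cut_le (L u : ℝ) : ‖cut L u‖ ≤ 1 := by
  simp only [cut, bc_apply, Complex.norm_real, Real.norm_eq_abs]
  rw [abs_of_nonneg (le_max_left _ _)]; exact max_le zero_le_one (min_le_left _ _)

lemma norm_cut_sub_le (L u : ℝ) : ‖cut L u - 1‖ ≤ 1 := by
  simp only [cut, bc_apply]
  rw [← Complex.ofReal_one, ← Complex.ofReal_sub, Complex.norm_real, Real.norm_eq_abs, abs_le]
  constructor
  · linarith [le_max_left 0 (min 1 (L + 1 - |u|))]
  · linarith [max_le zero_le_one (min_le_left 1 (L + 1 - |u|))]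

theorem exists_calc_of_hom (Φ : C(ℝ, ℂ) →⋆ₐ[ℂ] (H →L[ℂ] H))
    (hΦ : ∀ (g : C(ℝ, ℂ)) (c : ℝ), 0 ≤ c → (∀ r ∈ Set.Icc (0 : ℝ) 2, ‖g r‖ ≤ c) → ‖Φ g‖ ≤ c)
    (hd : DenseRange (Φ (extF 1))) :
    ∃ D : LineCalculus H, ∀ f, D.apply f * Φ (extF 1) = Φ (extF f) := by
  have hn : ∀ (f : ℝ →ᵇ ℂ) (x : H), ‖Φ (extF f) x‖ ≤ ‖f‖ * ‖Φ (extF 1) x‖ := fun f x => by
    let k : C(ℝ, ℂ) := ⟨fun r => ((√(‖f‖ ^ 2 * mW r ^ 2 - ‖extF f r‖ ^ 2) : ℝ) : ℂ), by
      have := continuous_mW
      fun_prop⟩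
    have e : star k * k + star (extF f) * extF f =
        ((‖f‖ ^ 2 : ℝ) : ℂ) • (star (extF 1) * extF 1) := by
      ext r
      have h0 : 0 ≤ mW r := le_max_left _ _
      have h1 : ‖extF f r‖ ≤ ‖f‖ * mW r := by
        rw [extF_apply, norm_mul, Complex.norm_real, Real.norm_of_nonneg h0]
        gcongr; exact f.norm_coe_le_norm _
      have h2 : 0 ≤ ‖f‖ ^ 2 * mW r ^ 2 - ‖extF f r‖ ^ 2 := by
        nlinarith [pow_le_pow_left₀ (norm_nonneg _) h1 2]
      have h3 : extF 1 r = (mW r : ℂ) := by simp [extF_apply]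
      simp only [ContinuousMap.add_apply, ContinuousMap.mul_apply, ContinuousMap.star_apply,
        ContinuousMap.smul_apply, k, ContinuousMap.coe_mk, h3, Complex.star_def,
        Complex.conj_ofReal, Complex.conj_mul', smul_eq_mul]
      rw [← Complex.ofReal_mul, Real.mul_self_sqrt h2]
      push_cast; ring
    have sq : ∀ g : C(ℝ, ℂ), ⟪x, Φ (star g * g) x⟫_ℂ = ((‖Φ g x‖ ^ 2 : ℝ) : ℂ) := fun g => by
      rw [map_mul, map_star, mul_apply_eq_comp, ContinuousLinearMap.star_eq_adjoint,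
        ContinuousLinearMap.adjoint_inner_right, inner_self_eq_norm_sq_to_K]
      push_cast; rfl
    have e2 := congrArg (fun g => ⟪x, Φ g x⟫_ℂ) e
    simp only [map_add, map_smul, add_apply, smul_apply, inner_add_right, inner_smul_right,
      sq] at e2
    have e3 : ‖Φ k x‖ ^ 2 + ‖Φ (extF f) x‖ ^ 2 = ‖f‖ ^ 2 * ‖Φ (extF 1) x‖ ^ 2 := by
      exact_mod_cast e2
    refine (sq_le_sq₀ (norm_nonneg _) (by positivity)).1 ?_
    nlinarith [sq_nonneg ‖Φ k x‖]
  set h := Φ (extF 1) with hh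
  let C : (ℝ →ᵇ ℂ) → H →L[ℂ] H := fun f =>
    (Φ (extF f) : H →ₗ[ℂ] H).extendOfNorm (h : H →ₗ[ℂ] H)
  have hC : ∀ f, C f * h = Φ (extF f) := fun f => ContinuousLinearMap.ext fun x =>
    LinearMap.extendOfNorm_eq (f := (Φ (extF f) : H →ₗ[ℂ] H)) (e := (h : H →ₗ[ℂ] H)) hd
      ⟨_, hn f⟩ x
  have hCn : ∀ f, ‖C f‖ ≤ ‖f‖ := fun f =>
    LinearMap.opNorm_extendOfNorm_le (f := (Φ (extF f) : H →ₗ[ℂ] H)) (e := (h : H →ₗ[ℂ] H)) hd
      (norm_nonneg _) (hn f)
  have un : ∀ {A B : H →L[ℂ] H}, A * h = B * h → A = B := fun {A B} e =>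
    ContinuousLinearMap.ext fun x => hd.induction_on x (isClosed_eq (by fun_prop) (by fun_prop))
      fun y => congrArg (fun T : H →L[ℂ] H => T y) e
  have hs : star h = h := by
    rw [hh, ← map_star]; congr 1; ext r; simp [extF_apply]
  have cm : ∀ f g, C f * Φ g = Φ g * C f := fun f g => un (by
    rw [mul_assoc, mul_assoc, hC, hh, ← map_mul, mul_comm g, map_mul, ← mul_assoc, ← hh, hC,
      ← map_mul, ← map_mul, mul_comm])
  have c1 : C 1 = 1 := un (by rw [hC, one_mul])
  have cs : ∀ (c : ℂ) f, C (c • f) = c • C f := fun c f => un (by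
    rw [hC, smul_mul_assoc, hC, ← map_smul]; congr 1; ext r; simp [extF_apply, mul_assoc])
  refine ⟨⟨{ toFun := C
             map_one' := c1
             map_mul' := fun f g => un (un ?_)
             map_zero' := un ?_
             map_add' := fun f g => un ?_
             commutes' := fun c => ?_
             map_star' := fun f => un ?_ }, fun x ε hε => ?_⟩, hC⟩
  · rw [hC, mul_assoc (C f), hC, mul_assoc, ← map_mul, ← map_mul, mul_comm (extF g), map_mul Φ
      (extF 1), ← mul_assoc, hC, ← map_mul]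
    congr 1; ext r; simp [extF_apply]; ring
  · rw [hC, zero_mul, ← map_zero Φ]; congr 1; ext r; simp [extF_apply]
  · rw [hC, add_mul, hC, hC, ← map_add]; congr 1; ext r; simp [extF_apply, add_mul]
  · rw [Algebra.algebraMap_eq_smul_one, Algebra.algebraMap_eq_smul_one, cs, c1]
  · rw [hC, ← hs, ← star_mul, hh, ← cm, ← hh, hC, ← map_star]
    congr 1; ext r; simp [extF_apply]
  · obtain ⟨y, hy⟩ := Metric.denseRange_iff.1 hd x (ε / 3) (by positivity)
    rw [dist_eq_norm] at hy
    obtain ⟨L, hL⟩ : ∃ L : ℝ, 4 * Real.exp (-L) * (‖y‖ + 1) = ε / 3 :=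
      ⟨-Real.log (ε / 3 / (4 * (‖y‖ + 1))), by
        rw [neg_neg, Real.exp_log (by positivity)]; field_simp⟩
    refine ⟨cut L, cut_compact L, ?_⟩
    have h1 : ‖C (cut L)‖ ≤ 1 := (hCn _).trans
      ((BoundedContinuousFunction.norm_le zero_le_one).2 (norm_cut_le L))
    have h2 : ‖Φ (extF (cut L) - extF 1)‖ ≤ 4 * Real.exp (-L) := by
      refine hΦ _ _ (by positivity) fun r hr => ?_
      have e : (extF (cut L) - extF 1) r = (cut L (Real.log ((2 - r) / r)) - 1) * (mW r : ℂ) := by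
        simp [extF_apply, sub_mul]
      rw [e]
      by_cases hl : |Real.log ((2 - r) / r)| ≤ L
      · rw [cut_eq_one hl]; simp; positivity
      by_cases h0 : mW r = 0
      · rw [h0]; simp; positivity
      have r0 : 0 < r := lt_of_le_of_ne hr.1 (by rintro rfl; simp [mW] at h0)
      have r2 : 0 < 2 - r := lt_of_le_of_ne (sub_nonneg.2 hr.2) fun e => by simp [mW, ← e] at h0
      rw [norm_mul, Complex.norm_real, mW_eq hr, Real.norm_of_nonneg (by positivity)]
      refine (mul_le_of_le_one_left (by positivity) (norm_cut_sub_le _ _)).trans ?_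
      rcases lt_abs.1 (not_le.1 hl) with h3 | h3
      · have h4 := Real.exp_le_exp.2 (neg_le_neg h3.le)
        rw [Real.exp_neg (Real.log _), Real.exp_log (by positivity), inv_div,
          div_le_iff₀ r2] at h4
        nlinarith [Real.exp_pos (-L), mul_le_mul_of_nonneg_right h4 r2.le]
      · have h4 := Real.exp_le_exp.2 (le_neg.1 h3.le)
        rw [Real.exp_log (by positivity), div_le_iff₀ r0] at h4
        nlinarith [Real.exp_pos (-L), mul_le_mul_of_nonneg_left h4 r0.le]
    change ‖C (cut L) x - x‖ < ε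
    have e : C (cut L) x - x = C (cut L) (x - h y) + Φ (extF (cut L) - extF 1) y - (x - h y) := by
      rw [map_sub Φ, ← hC, ← hh, map_sub, sub_apply, mul_apply_eq_comp]; abel
    rw [e]
    have h3 := ((C (cut L)).le_opNorm (x - h y)).trans
      (mul_le_of_le_one_left (norm_nonneg _) h1)
    have h4 := ((Φ (extF (cut L) - extF 1)).le_opNorm y).trans
      (mul_le_mul_of_nonneg_right h2 (norm_nonneg _))
    refine (norm_sub_le_of_le (norm_add_le_of_le h3 h4) le_rfl).trans_lt ?_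
    nlinarith [Real.exp_pos (-L)]

lemma denseRange_of_injective {h : H →L[ℂ] H} (hs : star h = h) (hi : ∀ x, h x = 0 → x = 0) :
    DenseRange h := by
  have : (LinearMap.range (h : H →ₗ[ℂ] H))ᗮ = ⊥ := by
    refine eq_bot_iff.2 fun x hx => hi x ?_
    refine ext_inner_left ℂ fun y => ?_
    rw [← hs, ContinuousLinearMap.star_eq_adjoint, ContinuousLinearMap.adjoint_inner_right,
      inner_zero_right]
    exact (Submodule.mem_orthogonal _ _).1 hx _ ⟨y, rfl⟩
  exact Submodule.dense_iff_topologicalClosure_eq_top.2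
    ((Submodule.topologicalClosure_eq_top_iff).2 this)

/-- The calculus of `log ((2 - R) / R)`. -/
theorem exists_calc {R : H →L[ℂ] H} (hR : IsSelfAdjoint R)
    (hsp : spectrum ℝ R ⊆ Set.Icc 0 2) (h0 : ∀ x, R x = 0 → x = 0)
    (h2 : ∀ x, (2 - R) x = 0 → x = 0) : ∃ D : LineCalculus H, D.apply rhoF = R := by
  have hn : IsStarNormal R := hR.isStarNormal
  let φ : C(spectrum ℂ R, ℝ) := ⟨fun z => (z : ℂ).re, by fun_prop⟩
  let Φ : C(ℝ, ℂ) →⋆ₐ[ℂ] (H →L[ℂ] H) := (cfcHom hn).comp (ContinuousMap.compStarAlgHom' ℂ ℂ φ)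
  have hre : ∀ z : spectrum ℂ R, (z : ℂ) = ((z : ℂ).re : ℂ) := fun z =>
    hR.mem_spectrum_eq_re z.2
  have hmem : ∀ z : spectrum ℂ R, φ z ∈ Set.Icc (0 : ℝ) 2 := fun z => by
    refine hsp ?_
    rw [← spectrum.algebraMap_mem_iff ℂ]
    have := z.2
    rwa [hre z] at this
  have hΦ : ∀ (g : C(ℝ, ℂ)) (c : ℝ), 0 ≤ c → (∀ r ∈ Set.Icc (0 : ℝ) 2, ‖g r‖ ≤ c) →
      ‖Φ g‖ ≤ c := fun g c hc h => by
    change ‖cfcHom hn (g.comp φ)‖ ≤ c
    rw [norm_cfcHom R _ hn]
    exact (ContinuousMap.norm_le _ hc).2 fun z => h _ (hmem z)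
  have hcongr : ∀ g g' : C(ℝ, ℂ), (∀ r ∈ Set.Icc (0 : ℝ) 2, g r = g' r) → Φ g = Φ g' :=
    fun g g' h => by
      rw [← sub_eq_zero, ← map_sub, ← norm_le_zero_iff]
      exact hΦ _ 0 le_rfl fun r hr => by simp [h r hr]
  let ι : C(ℝ, ℂ) := ⟨fun r => (r : ℂ), by fun_prop⟩
  have hι : Φ ι = R := by
    change cfcHom hn (ι.comp φ) = R
    refine Eq.trans ?_ (cfcHom_id (R := ℂ) hn)
    congr 1; ext z; exact (hre z).symm
  have h1 : Φ (extF 1) = R * (2 - R) := by
    rw [hcongr _ (ι * (1 + 1 - ι)) fun r hr => by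
      simp [extF_apply, mW_eq hr, ι]; left; norm_num, map_mul, map_sub, map_add, map_one, hι,
      one_add_one_eq_two]
  have hd : DenseRange (Φ (extF 1)) := by
    refine denseRange_of_injective ?_ fun x hx => ?_
    · rw [← map_star]; congr 1; ext r; simp [extF_apply]
    · rw [h1] at hx; exact h2 _ (h0 _ hx)
  obtain ⟨D, hD⟩ := exists_calc_of_hom Φ hΦ hd
  refine ⟨D, ContinuousLinearMap.ext fun x => hd.induction_on x
    (isClosed_eq (by fun_prop) (by fun_prop)) fun y => ?_⟩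
  rw [← mul_apply_eq_comp, hD, ← mul_apply_eq_comp, ← hι, ← map_mul]
  congr 1
  refine hcongr _ _ fun r hr => ?_
  simp only [extF_apply, ContinuousMap.mul_apply, ι, ContinuousMap.coe_mk,
    BoundedContinuousFunction.coe_one, Pi.one_apply, one_mul]
  by_cases h0 : mW r = 0
  · simp [h0]
  have r0 : 0 < r := lt_of_le_of_ne hr.1 (by rintro rfl; simp [mW] at h0)
  have r2 : 0 < 2 - r := lt_of_le_of_ne (sub_nonneg.2 hr.2) fun e => by simp [mW, ← e] at h0
  rw [rhoF_apply, Real.exp_log (by positivity)]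
  congr 2; field_simp; ring

end Crest.Agent.TT
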