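import Mathlib

/-! Tomita–Takesaki: the kernel `e^{-φ t} / cosh (π t)`. -/

set_option autoImplicit false

namespace Crest.Agent.TT

open MeasureTheory

/-- The kernel `e^{-φ t} / cosh (π t)`. -/
noncomputable def kap (φ t : ℝ) : ℂ := ((Real.exp (-(φ * t)) / Real.cosh (Real.pi * t) : ℝ) : ℂ)

lemma continuous_kap (φ : ℝ) : Continuous (kap φ) := by
  unfold kap
  refine Complex.continuous_ofReal.comp (Continuous.div (by fun_prop) (by fun_prop) fun t => ?_)
  exact (Real.cosh_pos _).ne'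

lemma norm_kap_le (φ t : ℝ) : ‖kap φ t‖ ≤ 2 * Real.exp (-((Real.pi - |φ|) * |t|)) := by
  have hc := Real.cosh_pos (Real.pi * t)
  rw [kap, Complex.norm_real, Real.norm_of_nonneg (by positivity), div_le_iff₀ hc]
  have h1 : Real.exp (Real.pi * |t|) ≤ 2 * Real.cosh (Real.pi * t) := by
    rw [← Real.cosh_abs, abs_mul, abs_of_pos Real.pi_pos, Real.cosh_eq]
    have := Real.exp_pos (-(Real.pi * |t|))
    linarith
  have h2 : -(φ * t) ≤ -((Real.pi - |φ|) * |t|) + Real.pi * |t| := by
    have := neg_abs_le (φ * t)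
    rw [abs_mul] at this
    linarith
  calc Real.exp (-(φ * t)) ≤ Real.exp (-((Real.pi - |φ|) * |t|)) * Real.exp (Real.pi * |t|) := by
        rw [← Real.exp_add]; exact Real.exp_le_exp.2 h2
    _ ≤ Real.exp (-((Real.pi - |φ|) * |t|)) * (2 * Real.cosh (Real.pi * t)) := by gcongr
    _ = _ := by ring

lemma integrable_exp_neg_mul_abs {c : ℝ} (hc : 0 < c) :
    Integrable fun t : ℝ => Real.exp (-(c * |t|)) := by
  have h1 : IntegrableOn (fun t : ℝ => Real.exp (-(c * |t|))) (Set.Ioi 0) := by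
    refine (exp_neg_integrableOn_Ioi 0 hc).congr_fun (fun t ht => ?_) measurableSet_Ioi
    simp only [abs_of_pos (Set.mem_Ioi.1 ht), neg_mul]
  have h2 : IntegrableOn (fun t : ℝ => Real.exp (-(c * |t|))) (Set.Iic 0) := by
    refine (integrableOn_exp_mul_Iic hc 0).congr_fun (fun t ht => ?_) measurableSet_Iic
    simp only [abs_of_nonpos (Set.mem_Iic.1 ht), mul_neg, neg_neg]
  rw [← integrableOn_univ, ← Set.Iic_union_Ioi (a := (0 : ℝ))]
  exact h2.union h1

lemma integrable_kap {φ : ℝ} (hφ : |φ| < Real.pi) : Integrable (kap φ) :=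
  ((integrable_exp_neg_mul_abs (sub_pos.2 hφ)).const_mul 2).mono'
    (continuous_kap φ).aestronglyMeasurable (Filter.Eventually.of_forall (norm_kap_le φ))

end Crest.Agent.TT
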