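import Crest.Agent.Lib.TT.Kap

/-! Uniqueness for the kernel `kap` (Laplace transform on an interval). -/

set_option autoImplicit false

namespace Crest.Agent.TT

open MeasureTheory Filter
open scoped Topology FourierTransform

theorem laplace_unique {g : ℝ → ℂ} (hg : Continuous g) {B : ℝ} (hB : ∀ t, ‖g t‖ ≤ B)
    (h : ∀ φ : ℝ, |φ| < Real.pi → ∫ t : ℝ, kap φ t * g t = 0) : ∀ t, g t = 0 := by
  have hB0 : 0 ≤ B := (norm_nonneg _).trans (hB 0)
  have hpi := Real.pi_gt_three
  set k : ℝ → ℂ := fun t => kap 0 t * g t with hk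
  have hkc : Continuous k := (continuous_kap 0).mul hg
  have hkb : ∀ t, ‖k t‖ ≤ 2 * B * Real.exp (-(3 * |t|)) := fun t => by
    have h1 := norm_kap_le 0 t
    have h2 : Real.exp (-((Real.pi - |0|) * |t|)) ≤ Real.exp (-(3 * |t|)) := by
      rw [abs_zero, sub_zero]
      gcongr
    rw [hk, norm_mul]
    calc _ ≤ 2 * Real.exp (-(3 * |t|)) * B := by gcongr; exacts [by linarith, hB t]
      _ = _ := by ring
  let U : Set ℂ := {z | |z.re| < 1}
  have hUo : IsOpen U := isOpen_lt (by fun_prop) continuous_const
  have hUc : Convex ℝ U := by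
    have : U = {z : ℂ | -1 < z.re} ∩ {z : ℂ | z.re < 1} := by ext z; simp [U, abs_lt]
    rw [this]
    exact (convex_halfSpace_re_gt _).inter (convex_halfSpace_re_lt _)
  have he : ∀ z ∈ U, ∀ t : ℝ, ‖Complex.exp (-(z * t))‖ ≤ Real.exp |t| := fun z hz t => by
    rw [Complex.norm_exp, Complex.neg_re, Complex.re_mul_ofReal]
    refine Real.exp_le_exp.2 ((neg_le_abs _).trans ?_)
    rw [abs_mul]
    exact mul_le_of_le_one_left (abs_nonneg _) (le_of_lt hz)
  have hint := (integrable_exp_neg_mul_abs one_pos).const_mul (2 * B)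
  have hb : ∀ z ∈ U, ∀ (t : ℝ) (c : ℂ), ‖c‖ ≤ Real.exp |t| →
      ‖c * Complex.exp (-(z * t)) * k t‖ ≤ 2 * B * Real.exp (-(1 * |t|)) := fun z hz t c hc => by
    rw [norm_mul, norm_mul]
    calc _ ≤ Real.exp |t| * Real.exp |t| * (2 * B * Real.exp (-(3 * |t|))) := by
          gcongr; exacts [he z hz t, hkb t]
      _ = 2 * B * (Real.exp |t| * Real.exp |t| * Real.exp (-(3 * |t|))) := by ring
      _ = _ := by rw [← Real.exp_add, ← Real.exp_add]; congr 2; ring
  let L : ℂ → ℂ := fun z => ∫ t : ℝ, Complex.exp (-(z * t)) * k t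
  have hd : DifferentiableOn ℂ L U := fun z hz => by
    refine (hasDerivAt_integral_of_dominated_loc_of_deriv_le (hUo.mem_nhds hz)
      (F' := fun z (t : ℝ) => -(t : ℂ) * Complex.exp (-(z * t)) * k t)
      (Eventually.of_forall fun z => Continuous.aestronglyMeasurable (by fun_prop))
      (hint.mono' (Continuous.aestronglyMeasurable (by fun_prop)) (Eventually.of_forall fun t => ?_))
      (Continuous.aestronglyMeasurable (by fun_prop))
      (Eventually.of_forall fun t w hw => hb w hw t _ ?_) hint
      (Eventually.of_forall fun t w _ => ?_)).2.differentiableAt.differentiableWithinAt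
    · simpa using hb z hz t 1 (by simp)
    · rw [norm_neg, Complex.norm_real, Real.norm_eq_abs]
      linarith [Real.add_one_le_exp |t|]
    · refine HasDerivAt.mul_const ?_ _
      exact (((hasDerivAt_id w).mul_const (t : ℂ)).neg.cexp).congr_deriv (by simp [mul_comm])
  have hreal : ∀ φ : ℝ, |φ| < 1 → L φ = 0 := fun φ hφ => by
    rw [← h φ (by linarith)]
    refine integral_congr_ae (Eventually.of_forall fun t => ?_)
    simp only [hk, kap]
    push_cast
    simp only [zero_mul, neg_zero, Complex.exp_zero]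
    ring
  have hz : Set.EqOn L 0 U := by
    refine (hd.analyticOnNhd hUo).eqOn_zero_of_preconnected_of_frequently_eq_zero
      hUc.isPreconnected (z₀ := 0) (by simp [U]) ?_
    have t1 : Tendsto (fun x : ℝ => (x : ℂ)) (𝓝[≠] 0) (𝓝[≠] 0) :=
      tendsto_nhdsWithin_iff.2 ⟨(Complex.continuous_ofReal.tendsto' 0 0 (by simp)).mono_left
        nhdsWithin_le_nhds, eventually_nhdsWithin_of_forall fun x hx => by simpa using hx⟩
    refine t1.frequently (Eventually.frequently ?_)
    filter_upwards [nhdsWithin_le_nhds (Metric.ball_mem_nhds (0 : ℝ) one_pos)] with x hx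
    exact hreal x (by simpa using hx)
  have hF : 𝓕 k = 0 := by
    ext w
    have := hz (x := 2 * Real.pi * w * Complex.I) (by simp [U])
    rw [Pi.zero_apply] at this
    rw [Real.fourier_real_eq_integral_exp_smul, Pi.zero_apply, ← this]
    refine integral_congr_ae (Eventually.of_forall fun t => ?_)
    simp only [smul_eq_mul]
    congr 2
    push_cast
    ring
  have hki : Integrable k :=
    (integrable_kap (by simpa using Real.pi_pos)).mul_bdd hg.aestronglyMeasurable
      (Eventually.of_forall hB)
  have := hkc.fourierInv_fourier_eq hki (by rw [hF]; exact integrable_zero _ _ _)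
  intro t
  have h0 : k t = 0 := by
    rw [← this, hF, Real.fourierInv_eq]
    simp
  refine (mul_eq_zero.1 h0).resolve_left ?_
  rw [kap]
  exact Complex.ofReal_ne_zero.2 (div_pos (Real.exp_pos _) (Real.cosh_pos _)).ne'

end Crest.Agent.TT
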