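import Crest.Agent.Lib.TT.Kap

/-! The strip integral formula (Rieffel–van Daele, Lemma 4.6). -/

set_option autoImplicit false

namespace Crest.Agent.TT

open MeasureTheory Filter Complex
open scoped Topology

lemma strip_sinh_le (z : ℂ) : Real.sinh |z.im| ≤ ‖Complex.sin z‖ := by
  have h1 : ‖cexp (-z * I)‖ = Real.exp z.im := by rw [Complex.norm_exp]; simp
  have h2 : ‖cexp (z * I)‖ = Real.exp (-z.im) := by rw [Complex.norm_exp]; simp
  have h3 := abs_norm_sub_norm_le (cexp (-z * I)) (cexp (z * I))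
  rw [h1, h2] at h3
  rw [← Real.abs_sinh, Real.sinh_eq, Complex.sin, norm_div, norm_mul, norm_I, mul_one, abs_div]
  simp only [Nat.abs_ofNat, Complex.norm_ofNat]
  gcongr

lemma strip_zero {φ : ℝ} (hφ : |φ| < Real.pi) {f : ℂ → ℂ} (hf : Differentiable ℂ f) {B : ℝ}
    (hB : ∀ z : ℂ, |z.re| ≤ 1 / 2 → ‖f z‖ ≤ B) (h0 : f 0 = 0) :
    ∫ t : ℝ, kap φ t * (cexp (I * (φ / 2)) * f (I * t + 1 / 2) +
      cexp (-(I * (φ / 2))) * f (I * t - 1 / 2)) = 0 := by
  have hB0 : 0 ≤ B := (norm_nonneg _).trans (hB 0 (by simp))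
  have hpi := Real.pi_pos
  let s : ℂ → ℂ := fun z => Complex.sin (Real.pi * z)
  have hs : Differentiable ℂ s := by fun_prop
  let g : ℂ → ℂ := fun z => cexp (I * φ * z) * dslope f 0 z / dslope s 0 z
  have hg : ∀ z, z ≠ 0 → g z = cexp (I * φ * z) * f z / s z := fun z hz => by
    simp only [g, dslope_of_ne _ hz, slope_def_field, h0, s, mul_zero, Complex.sin_zero, sub_zero]
    rw [mul_div_assoc, div_div_div_cancel_right₀ hz, mul_div_assoc]
  have hden : ∀ z : ℂ, |z.re| ≤ 1 / 2 → dslope s 0 z ≠ 0 := fun z hz => by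
    rcases eq_or_ne z 0 with rfl | h
    · have : HasDerivAt s (Real.pi : ℂ) 0 :=
        (((hasDerivAt_id (0 : ℂ)).const_mul (Real.pi : ℂ)).csin).congr_deriv (by simp)
      rw [dslope_same, this.deriv]
      exact ofReal_ne_zero.2 hpi.ne'
    · simp only [dslope_of_ne _ h, slope_def_field, s, mul_zero, Complex.sin_zero, sub_zero]
      refine div_ne_zero (fun h' => h ?_) h
      obtain ⟨k, hk⟩ := Complex.sin_eq_zero_iff.1 h'
      rw [mul_comm] at hk
      have hz' : z = k := mul_right_cancel₀ (ofReal_ne_zero.2 hpi.ne') hk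
      rw [hz', intCast_re] at hz
      have : |k| < 1 := by exact_mod_cast (show |(k : ℝ)| < 1 by linarith)
      rw [hz', Int.abs_lt_one_iff.1 this, Int.cast_zero]
  have hds : ∀ {f : ℂ → ℂ}, Differentiable ℂ f → Differentiable ℂ (dslope f 0) := fun hf =>
    differentiableOn_univ.1 ((differentiableOn_dslope univ_mem).2 hf.differentiableOn)
  have hgd : ∀ z : ℂ, |z.re| ≤ 1 / 2 → DifferentiableAt ℂ g z := fun z hz =>
    ((by fun_prop : DifferentiableAt ℂ (fun z => cexp (I * φ * z)) z).mul (hds hf z)).div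
      (hds hs z) (hden z hz)
  have e1 : ∀ t : ℝ, g ((1 / 2 : ℝ) + t * I) = kap φ t * (cexp (I * (φ / 2)) * f (I * t + 1 / 2)) :=
    fun t => by
    rw [hg _ (fun h => by simpa using congrArg re h), kap]
    simp only [s]
    push_cast
    rw [show (Real.pi : ℂ) * (1 / 2 + t * I) = Real.pi * t * I + Real.pi / 2 by ring,
      Complex.sin_add_pi_div_two, Complex.cos_mul_I,
      show I * φ * (1 / 2 + t * I) = -(φ * t) + I * (φ / 2) by
        linear_combination (φ * t : ℂ) * I_mul_I, Complex.exp_add,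
      show (1 / 2 + t * I : ℂ) = I * t + 1 / 2 by ring]
    ring
  have e2 : ∀ t : ℝ, g ((-(1 / 2) : ℝ) + t * I) =
      -(kap φ t * (cexp (-(I * (φ / 2))) * f (I * t - 1 / 2))) := fun t => by
    rw [hg _ (fun h => by simpa using congrArg re h), kap]
    simp only [s]
    push_cast
    rw [show (Real.pi : ℂ) * (-(1 / 2) + t * I) = Real.pi * t * I - Real.pi / 2 by ring,
      Complex.sin_sub_pi_div_two, Complex.cos_mul_I,
      show I * φ * (-(1 / 2) + t * I) = -(φ * t) + -(I * (φ / 2)) by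
        linear_combination (φ * t : ℂ) * I_mul_I, Complex.exp_add,
      show (-(1 / 2) + t * I : ℂ) = I * t - 1 / 2 by ring]
    ring
  have hfc := hf.continuous
  have i1 : Integrable fun t : ℝ => kap φ t * (cexp (I * (φ / 2)) * f (I * t + 1 / 2)) :=
    (integrable_kap hφ).mul_bdd (c := ‖cexp (I * (φ / 2))‖ * B)
      (Continuous.aestronglyMeasurable (by fun_prop)) (Eventually.of_forall fun t => by
        rw [norm_mul]; gcongr; exact hB _ (by simp))
  have i2 : Integrable fun t : ℝ => kap φ t * (cexp (-(I * (φ / 2))) * f (I * t - 1 / 2)) :=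
    (integrable_kap hφ).mul_bdd (c := ‖cexp (-(I * (φ / 2)))‖ * B)
      (Continuous.aestronglyMeasurable (by fun_prop)) (Eventually.of_forall fun t => by
        rw [norm_mul]; gcongr; exact hB _ (by simp))
  have hor : ∀ T y : ℝ, 1 ≤ T → |y| = T → ‖∫ x in (-(1 / 2) : ℝ)..(1 / 2 : ℝ), g (x + y * I)‖ ≤
      4 * B * Real.exp (-((Real.pi - |φ|) * T)) := fun T y hT hy => by
    refine (intervalIntegral.norm_integral_le_of_norm_le_const
      (C := 4 * B * Real.exp (-((Real.pi - |φ|) * T))) fun x hx => ?_).trans (by norm_num)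
    have hx' : |x| ≤ 1 / 2 := by
      rw [Set.uIoc_of_le (by norm_num)] at hx
      exact abs_le.2 ⟨hx.1.le, hx.2⟩
    have hy0 : y ≠ 0 := by rintro rfl; rw [abs_zero] at hy; linarith
    rw [hg _ (fun h => hy0 (by simpa using congrArg im h)), norm_div, norm_mul]
    have a1 : ‖cexp (I * φ * (x + y * I))‖ ≤ Real.exp (|φ| * T) := by
      rw [Complex.norm_exp, ← hy, ← abs_mul]
      exact Real.exp_le_exp.2 (by simpa using neg_le_abs (φ * y))
    have a2 : ‖f (x + y * I)‖ ≤ B := hB _ (by simpa using hx')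
    have a3 : Real.exp (Real.pi * T) / 4 ≤ ‖s (x + y * I)‖ := by
      refine le_trans ?_ (strip_sinh_le _)
      have b1 : 3 ≤ Real.pi * T := by nlinarith [Real.pi_gt_three]
      have b2 := Real.add_one_le_exp (Real.pi * T)
      have b3 : Real.exp (-(Real.pi * T)) ≤ 1 := Real.exp_le_one_iff.2 (by linarith)
      rw [show ((Real.pi : ℂ) * (x + y * I)).im = Real.pi * y by simp, abs_mul, abs_of_pos hpi, hy,
        Real.sinh_eq]
      linarith
    calc _ ≤ Real.exp (|φ| * T) * B / (Real.exp (Real.pi * T) / 4) := by gcongr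
      _ = 4 * B * (Real.exp (|φ| * T) / Real.exp (Real.pi * T)) := by field_simp
      _ = _ := by rw [← Real.exp_sub]; congr 2; ring
  have hlim : Tendsto (fun T : ℝ => 4 * B * Real.exp (-((Real.pi - |φ|) * T))) atTop (𝓝 0) := by
    simpa using (Real.tendsto_exp_neg_atTop_nhds_zero.comp
      (tendsto_id.const_mul_atTop (sub_pos.2 hφ))).const_mul (4 * B)
  have l1 : Tendsto (fun T : ℝ => ∫ x in (-(1 / 2) : ℝ)..(1 / 2 : ℝ), g (x + (-T : ℝ) * I))
      atTop (𝓝 0) := squeeze_zero_norm' (by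
        filter_upwards [eventually_ge_atTop 1] with T hT
        exact hor T _ hT (by rw [abs_neg, abs_of_pos (by linarith)])) hlim
  have l2 : Tendsto (fun T : ℝ => ∫ x in (-(1 / 2) : ℝ)..(1 / 2 : ℝ), g (x + (T : ℝ) * I))
      atTop (𝓝 0) := squeeze_zero_norm' (by
        filter_upwards [eventually_ge_atTop 1] with T hT
        exact hor T _ hT (abs_of_pos (by linarith))) hlim
  have l3 := intervalIntegral_tendsto_integral i1 tendsto_neg_atTop_atBot tendsto_id
  have l4 := intervalIntegral_tendsto_integral i2.neg tendsto_neg_atTop_atBot tendsto_id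
  have l5 := ((l1.sub l2).add (l3.const_smul I)).sub (l4.const_smul I)
  have l6 := tendsto_nhds_unique l5 (tendsto_const_nhds.congr fun T => by
    have := integral_boundary_rect_eq_zero_of_differentiableOn g ⟨-(1 / 2), -T⟩ ⟨1 / 2, T⟩
      fun z hz => (hgd z (by
        have := hz.1
        rw [Set.mem_preimage, Set.uIcc_of_le (by norm_num)] at this
        exact abs_le.2 this)).differentiableWithinAt
    simp only [e1, e2] at this
    exact this.symm)
  simp only [mul_add]
  rw [integral_add i1 i2]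
  rw [sub_self, zero_add, ← smul_sub, smul_eq_zero_iff_right I_ne_zero, integral_neg',
    sub_neg_eq_add] at l6
  exact l6

theorem strip {φ : ℝ} (hφ : |φ| < Real.pi) : ∃ c : ℂ, ∀ f : ℂ → ℂ, Differentiable ℂ f →
    ∀ B : ℝ, (∀ z : ℂ, |z.re| ≤ 1 / 2 → ‖f z‖ ≤ B) →
      ∫ t : ℝ, kap φ t * (cexp (I * (φ / 2)) * f (I * t + 1 / 2) +
        cexp (-(I * (φ / 2))) * f (I * t - 1 / 2)) = c * f 0 := by
  refine ⟨∫ t, kap φ t * (cexp (I * (φ / 2)) + cexp (-(I * (φ / 2)))), fun f hf B hB => ?_⟩
  have h := strip_zero hφ (f := fun z => f z - f 0) (hf.sub_const _) (B := B + ‖f 0‖)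
    (fun z hz => (norm_sub_le _ _).trans (by gcongr; exact hB z hz)) (sub_self _)
  have hfc := hf.continuous
  have i1 : Integrable fun t : ℝ => kap φ t * (cexp (I * (φ / 2)) * f (I * t + 1 / 2) +
        cexp (-(I * (φ / 2))) * f (I * t - 1 / 2)) :=
    (integrable_kap hφ).mul_bdd (c := ‖cexp (I * (φ / 2))‖ * B + ‖cexp (-(I * (φ / 2)))‖ * B)
      (Continuous.aestronglyMeasurable (by fun_prop)) (Eventually.of_forall fun t => by
        refine (norm_add_le _ _).trans ?_
        rw [norm_mul, norm_mul]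
        gcongr <;> exact hB _ (by simp))
  rw [← integral_mul_const, ← sub_eq_zero,
    ← integral_sub i1 (((integrable_kap hφ).mul_const _).mul_const _)]
  refine Eq.trans ?_ h
  congr 1
  ext t
  ring

end Crest.Agent.TT
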