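import Crest.Agent.Lib.TT.RN
import Crest.Agent.Lib.TT.Strip
import Crest.Agent.Lib.TT.Laplace

/-! Tomita–Takesaki, part 4: the theorem (Rieffel–van Daele's proof). -/

set_option autoImplicit false

namespace Crest.Agent.TT

open Crest.OpAlg Crest.OpAlg.LineCalculus Crest.Agent.R084 Filter MeasureTheory
open scoped BoundedContinuousFunction Topology InnerProductSpace ComplexConjugate

variable {H : Type*} [NormedAddCommGroup H] [InnerProductSpace ℂ H] [CompleteSpace H]

/-- The operator `J a J`. -/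
noncomputable def jc (J : H ≃ₗᵢ⋆[ℂ] H) (a : H →L[ℂ] H) : H →L[ℂ] H where
  toFun x := J (a (J x))
  map_add' x y := by simp
  map_smul' c x := by simp [LinearIsometryEquiv.map_smulₛₗ]
  cont := by fun_prop

omit [CompleteSpace H] in
@[simp] lemma jc_apply (J : H ≃ₗᵢ⋆[ℂ] H) (a : H →L[ℂ] H) (x : H) : jc J a x = J (a (J x)) := rfl

/-- `F(u) e^{z u}` for compactly supported `F`. -/
noncomputable def mulExpC (F : ℝ →ᵇ ℂ) (hF : HasCompactSupport (F : ℝ → ℂ)) (z : ℂ) : ℝ →ᵇ ℂ :=
  ofCompactSupport (fun u => F u * Complex.exp (z * u)) (by fun_prop) hF.mul_right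

@[simp] lemma mulExpC_apply (F : ℝ →ᵇ ℂ) (hF : HasCompactSupport (F : ℝ → ℂ)) (z : ℂ) (u : ℝ) :
    mulExpC F hF z u = F u * Complex.exp (z * u) := rfl

lemma exists_supp_bound {F : ℝ → ℂ} (hF : HasCompactSupport F) :
    ∃ L : ℝ, 0 ≤ L ∧ ∀ u, L < |u| → F u = 0 := by
  obtain ⟨L, hL⟩ := hF.isCompact.isBounded.subset_closedBall 0
  refine ⟨max L 0, le_max_right _ _, fun u hu => ?_⟩
  by_contra h
  have := hL (subset_tsupport _ h)
  rw [mem_closedBall_zero_iff, Real.norm_eq_abs] at this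
  linarith [le_max_left L 0]

lemma differentiable_mulExpC (F : ℝ →ᵇ ℂ) (hF : HasCompactSupport (F : ℝ → ℂ)) :
    Differentiable ℂ (mulExpC F hF) := by
  obtain ⟨L, hL0, hL⟩ := exists_supp_bound hF
  let g : ℝ →ᵇ ℂ := bc (fun u => max (-L) (min L u)) (by fun_prop) L fun u =>
    abs_le.2 ⟨le_max_left _ _, max_le (by linarith) (min_le_left _ _)⟩
  have : mulExpC F hF = fun z : ℂ => F * NormedSpace.exp (z • g) := by
    ext z u
    have h1 : NormedSpace.exp (z • g) u = Complex.exp (z * g u) := by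
      rw [Complex.exp_eq_exp_ℂ]
      exact NormedSpace.map_exp (f := (⟨⟨⟨fun f => f u, rfl⟩, fun _ _ => rfl⟩, rfl,
        fun _ _ => rfl⟩ : (ℝ →ᵇ ℂ) →+* ℂ))
        (BoundedContinuousFunction.evalCLM ℂ u).continuous (z • g)
    rw [mulExpC_apply, BoundedContinuousFunction.mul_apply, h1]
    by_cases hu : L < |u|
    · rw [hL u hu, zero_mul, zero_mul]
    · have := abs_le.1 (not_lt.1 hu)
      simp only [g, bc_apply, min_eq_right this.2, max_eq_right this.1]
  rw [this]
  exact fun z => (hasDerivAt_exp_smul_const (𝕂 := ℂ) g z).differentiableAt.const_mul F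

lemma norm_mulExpC_le (F : ℝ →ᵇ ℂ) (hF : HasCompactSupport (F : ℝ → ℂ)) (r : ℝ) :
    ∃ B : ℝ, ∀ z : ℂ, |z.re| ≤ r → ‖mulExpC F hF z‖ ≤ B := by
  obtain ⟨L, hL0, hL⟩ := exists_supp_bound hF
  refine ⟨‖F‖ * Real.exp (r * L), fun z hz => (BoundedContinuousFunction.norm_le
    (by positivity)).2 fun u => ?_⟩
  rw [mulExpC_apply]
  by_cases hu : L < |u|
  · rw [hL u hu, zero_mul, norm_zero]; positivity
  · rw [norm_mul, Complex.norm_exp]
    gcongr
    · exact F.norm_coe_le_norm u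
    · rw [Complex.re_mul_ofReal]
      exact (le_abs_self _).trans (by
        rw [abs_mul]; exact mul_le_mul hz (not_lt.1 hu) (abs_nonneg _) ((abs_nonneg _).trans hz))

/-- The weak integral `∫ ρ(t) e^{-itD} a e^{itD} dt`. -/
lemma exists_smear (D : LineCalculus H) {ρ : ℝ → ℂ} (hρ : Integrable ρ) (a : H →L[ℂ] H) :
    ∃ W : H →L[ℂ] H, ∀ η ζ, ⟪η, W ζ⟫_ℂ = ∫ t, ρ t * ⟪η, D.wave (-t) (a (D.wave t ζ))⟫_ℂ := by
  have hc : ∀ y, Continuous fun t : ℝ => D.wave (-t) (a (D.wave t y)) := fun y =>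
    (continuous_wave₂ D (G := fun t => a (D.wave (-t) y))
      (a.continuous.comp ((continuous_wave D y).comp continuous_neg))).comp continuous_neg |>.congr
      fun t => by simp
  have hb : ∀ y t, ‖D.wave (-t) (a (D.wave t y))‖ ≤ ‖a‖ * ‖y‖ := fun y t => by
    rw [norm_wave_apply]
    exact (a.le_opNorm _).trans (by rw [norm_wave_apply])
  have hi : ∀ y, Integrable fun t => ρ t • D.wave (-t) (a (D.wave t y)) := fun y =>
    integrable_smul_of_bound hρ (hc y) _ (hb y)
  refine ⟨LinearMap.mkContinuous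
    { toFun := fun y => ∫ t, ρ t • D.wave (-t) (a (D.wave t y))
      map_add' := fun y z => by
        rw [← integral_add (hi y) (hi z)]
        simp only [map_add, smul_add]
      map_smul' := fun c y => by
        simp only [map_smul, RingHom.id_apply, smul_comm _ c]
        rw [integral_smul] } ((∫ t, ‖ρ t‖) * ‖a‖) fun y => ?_, fun η ζ => ?_⟩
  · rw [mul_assoc, ← integral_mul_const]
    refine norm_integral_le_of_norm_le (hρ.norm.mul_const _) (Eventually.of_forall fun t => ?_)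
    rw [norm_smul]
    gcongr
    exact hb y t
  · rw [LinearMap.mkContinuous_apply, LinearMap.coe_mk, AddHom.coe_mk, ← integral_inner (hi ζ)]
    simp only [inner_smul_right]

lemma eq_zero_of_compress (D : LineCalculus H) {A : H →L[ℂ] H}
    (h : ∀ F G : ℝ →ᵇ ℂ, HasCompactSupport (F : ℝ → ℂ) → HasCompactSupport (G : ℝ → ℂ) →
      ∀ η ζ, ⟪η, D.apply F (A (D.apply G ζ))⟫_ℂ = 0) : A = 0 := by
  have h1 : ∀ G : ℝ →ᵇ ℂ, HasCompactSupport (G : ℝ → ℂ) → ∀ ζ, A (D.apply G ζ) = 0 :=
    fun G hG ζ => eq_zero_of_forall_compact D _ fun F hF =>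
      inner_self_eq_zero.1 (h F G hF hG _ ζ)
  rw [← star_eq_zero]
  ext η
  refine eq_zero_of_forall_compact D _ fun G hG => ext_inner_right ℂ fun ζ => ?_
  rw [inner_app_left, inner_star_left, h1 _ (hasCompactSupport_star hG), inner_zero_right,
    inner_zero_left]

namespace Std

variable {K : Submodule ℝ H} {D : LineCalculus H} {J : H ≃ₗᵢ⋆[ℂ] H}

lemma J_tau (S : Std K D J) (x : H) : J (D.apply tauF x) = D.apply tauF (J x) := by
  rw [S.J_app, star_negF_tauF]

lemma J_rho (S : Std K D J) (x : H) : J (D.apply rhoF x) = D.apply (2 - rhoF) (J x) := by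
  rw [S.J_app, star_negF_rhoF]

lemma J_two_sub (S : Std K D J) (x : H) : J (D.apply (2 - rhoF) x) = D.apply rhoF (J x) := by
  conv_lhs => rw [← S.J_J x, ← S.J_rho, S.J_J]

lemma inner_JJ (S : Std K D J) (x y : H) : ⟪J x, J y⟫_ℂ = ⟪y, x⟫_ℂ := by
  rw [S.inner_J, S.J_J]

lemma inner_J' (S : Std K D J) (x y : H) : ⟪x, J y⟫_ℂ = ⟪y, J x⟫_ℂ := by
  rw [← inner_conj_symm, S.inner_J, inner_conj_symm]

lemma star_jc (S : Std K D J) (a : H →L[ℂ] H) : star (jc J a) = jc J (star a) := by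
  ext x
  refine ext_inner_right ℂ fun y => ?_
  rw [inner_star_left, jc_apply, jc_apply, S.inner_J', S.inner_J, inner_star_right]

lemma jc_jc (S : Std K D J) (a : H →L[ℂ] H) : jc J (jc J a) = a := by
  ext x; simp [S.J_J]

/-- The graph of the Tomita operator of `K`. -/
lemma halfExp_iff_mem (S : Std K D J) {x y : H} :
    D.HalfExp x (J y) ↔ x + y ∈ K ∧ Complex.I • (x - y) ∈ K := by
  rw [halfExp_iff, S.mem_iff, S.mem_iff]
  simp only [map_add, map_smul, map_sub _ x y, LinearIsometryEquiv.map_smulₛₗ, Complex.conj_I,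
    map_sub J]
  constructor
  · intro h
    have h1 : D.apply (2 - rhoF) y = J (D.apply tauF x) := by rw [← h, S.J_rho, S.J_J]
    have h2 : D.apply (2 - rhoF) x = J (D.apply tauF y) := by
      refine app_injective D tauF_ne ?_
      rw [app_comm, ← h, S.J_tau, ← app_mul_apply, ← app_mul_apply, tauF_mul_tauF, mul_comm]
    rw [h1, h2]
    exact ⟨add_comm _ _, by rw [neg_smul, ← smul_neg, neg_sub]⟩
  · rintro ⟨h1, h2⟩
    rw [neg_smul, ← smul_neg, neg_sub] at h2
    have h3 := smul_right_injective H Complex.I_ne_zero h2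
    have h4 : (2 : ℂ) • D.apply (2 - rhoF) y = (2 : ℂ) • J (D.apply tauF x) := by
      rw [two_smul, two_smul]
      linear_combination (norm := module) h1 - h3
    rw [← S.J_two_sub, smul_right_injective H two_ne_zero h4, S.J_J]

end Std

section
variable {M : VonNeumannAlgebra H} {ξ : H} {D : LineCalculus H} {J : H ≃ₗᵢ⋆[ℂ] H}

lemma exists_std_saK (hc : Cyc M ξ) (hs : Sep M ξ) : ∃ D J, Std (saK M ξ) D J := by
  refine exists_std _ (isClosed_saK M ξ) (fun x hx hx' => ?_) (fun x hx => ?_)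
  · refine hs.cyc_commutant.eq_of_inner fun b hb => ?_
    obtain ⟨h, hh, k, hk, hh', hk', rfl⟩ := exists_sa_decomp _ hb
    have key : ∀ b ∈ M.commutant, star b = b → ⟪b ξ, x⟫_ℂ = 0 := fun b hb hb' => by
      have a1 := im_inner_saK hb hb' hx
      have a2 := im_inner_saK hb hb' hx'
      rw [inner_smul_left] at a2
      rw [inner_eq_zero_symm]
      exact Complex.ext (by simpa using a2) a1
    simp [key h hh hh', key k hk hk']
  · refine hc.eq_of_inner fun b hb => ?_
    obtain ⟨h, hh, k, hk, hh', hk', rfl⟩ := exists_sa_decomp _ hb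
    simp [hx _ (mem_saK ξ hh hh'), hx _ (mem_saK ξ hk hk')]

lemma halfExp_orb (S : Std (saK M ξ) D J) {a : H →L[ℂ] H} (ha : a ∈ M) :
    D.HalfExp (a ξ) (J (star a ξ)) := by
  refine S.halfExp_iff_mem.2 ⟨mem_saK ξ (add_mem ha (star_mem ha)) (by simp [add_comm]),
    mem_saK ξ (a := Complex.I • (a - star a)) (vn_smul_mem M _ (sub_mem ha (star_mem ha))) ?_⟩
  simp only [star_smul, star_sub, star_star, Complex.star_def, Complex.conj_I]
  module

lemma C_orb (S : Std (saK M ξ) D J) {a : H →L[ℂ] H} (ha : a ∈ M) :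
    J (D.apply tauF (a ξ)) = D.apply (2 - rhoF) (star a ξ) := by
  rw [← (halfExp_iff D).1 (halfExp_orb S ha), S.J_rho, S.J_J]

lemma tomita_std (S : Std (saK M ξ) D J) :
    closure (Set.range fun a : M => ((a : H →L[ℂ] H) ξ, star (a : H →L[ℂ] H) ξ)) =
      {p : H × H | D.HalfExp p.1 (J p.2)} := by
  refine subset_antisymm (closure_minimal ?_ ?_) ?_
  · rintro _ ⟨a, rfl⟩
    exact halfExp_orb S a.2
  · simp only [halfExp_iff]
    exact isClosed_eq (by fun_prop) (by fun_prop)
  · rintro ⟨x, y⟩ h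
    obtain ⟨h1, h2⟩ := S.halfExp_iff_mem.1 h
    have hm : (x + y, Complex.I • (x - y)) ∈ closure ((saOrb M ξ : Set H) ×ˢ (saOrb M ξ : Set H)) := by
      rw [closure_prod_eq]; exact ⟨h1, h2⟩
    have := map_mem_closure (f := fun p : H × H =>
      ((2⁻¹ : ℂ) • (p.1 - Complex.I • p.2), (2⁻¹ : ℂ) • (p.1 + Complex.I • p.2))) (by fun_prop) hm
      (t := Set.range fun a : M => ((a : H →L[ℂ] H) ξ, star (a : H →L[ℂ] H) ξ)) (by
        rintro ⟨_, _⟩ ⟨⟨a, ha, ha', rfl⟩, ⟨b, hb, hb', rfl⟩⟩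
        exact ⟨⟨(2⁻¹ : ℂ) • (a - Complex.I • b), vn_smul_mem M _ (sub_mem ha (vn_smul_mem M _ hb))⟩,
          by simp [ha', hb']⟩)
    convert this using 2
    · simp only [smul_smul, Complex.I_mul_I]; module
    · simp only [smul_smul, Complex.I_mul_I]; module

lemma J_vac (S : Std (saK M ξ) D J) : J ξ = ξ := by
  have h1 := (S.mem_iff ξ).1 (mem_saK ξ (one_mem M) (star_one _))
  have h2 := S.perp ξ fun k hk => im_inner_saK (one_mem M.commutant) (star_one _) hk
  have h3 : D.apply rhoF ξ = ξ := by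
    rw [← h2, app_two_sub, sub_eq_iff_eq_add, ← two_smul ℂ] at h1
    exact (smul_right_injective H two_ne_zero h1).symm
  have h4 : D.apply tauF ξ = ξ := by
    rw [← sub_eq_zero]
    refine app_eq_zero D (f := tauF + 1) (fun u => ?_) ?_
    · rw [BoundedContinuousFunction.add_apply, tauF_apply, BoundedContinuousFunction.coe_one,
        Pi.one_apply]
      exact_mod_cast (by positivity : 2 * Real.exp (u / 2) / (1 + Real.exp u) + 1 ≠ 0)
    · rw [map_add, map_one, add_apply, one_apply_eq_self, map_sub, ← app_mul_apply, tauF_mul_tauF,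
        app_mul_apply, h1, ← h2, h3, h3]
      abel
  rw [h4, h3] at h2
  exact h2.symm

/-- Radon–Nikodym with `l = 1`. -/
lemma exists_lift (hs : Sep M ξ) (S : Std (saK M ξ) D J) {b : H →L[ℂ] H} (hb : b ∈ M.commutant)
    (hb' : star b = b) : ∃ a ∈ M, star a = a ∧ a ξ = D.apply rhoF (b ξ) ∧
      a ξ = J (D.apply tauF (b ξ)) := by
  obtain ⟨a, ha, ha', h⟩ := radon_nikodym hs hb hb' (l := 1) (by simp)
  have h1 := S.perp _ fun k hk => im_inner_saK hb hb' hk
  have h2 := S.perp (Complex.I • (a ξ - b ξ)) fun k hk => by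
    have := h k hk
    rw [one_smul] at this
    simp [this]
  have h3 := (S.mem_iff _).1 (mem_saK ξ ha ha')
  simp only [map_smul, map_sub, LinearIsometryEquiv.map_smulₛₗ, Complex.conj_I, neg_smul] at h2
  rw [← smul_neg, ← h3, ← h1, app_two_sub] at h2
  have h4 := smul_right_injective H Complex.I_ne_zero h2
  have h5 : (2 : ℂ) • a ξ = (2 : ℂ) • D.apply rhoF (b ξ) := by
    rw [two_smul ℂ (D.apply rhoF (b ξ))]
    linear_combination (norm := module) h4
  have h6 := smul_right_injective H two_ne_zero h5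
  exact ⟨a, ha, ha', h6, h6.trans h1⟩

/-- Rieffel–van Daele, Lemma 4.5. -/
lemma key_identity (hs : Sep M ξ) (S : Std (saK M ξ) D J) {b : H →L[ℂ] H} (hb : b ∈ M.commutant)
    (hb' : star b = b) {l : ℂ} (hl : 0 < l.re) : ∃ x ∈ M, ∀ η ζ,
      2 * ⟪η, D.apply tauF (jc J b (D.apply tauF ζ))⟫_ℂ =
        l * ⟪η, D.apply rhoF (x (D.apply (2 - rhoF) ζ))⟫_ℂ +
          conj l * ⟪η, D.apply (2 - rhoF) (x (D.apply rhoF ζ))⟫_ℂ := by
  obtain ⟨x, hx, hx', h⟩ := radon_nikodym hs hb hb' hl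
  have h1 : ∀ y ∈ M, star y = y →
      2 * ⟪y ξ, b ξ⟫_ℂ = l * ⟪y ξ, x ξ⟫_ℂ + conj l * ⟪x ξ, y ξ⟫_ℂ := fun y hy hy' => by
    have a1 := h _ (mem_saK ξ hy hy')
    have a2 := im_inner_saK hb hb' (mem_saK ξ hy hy')
    rw [inner_smul_right] at a1
    rw [← inner_conj_symm (x ξ), ← map_mul, Complex.add_conj, a1]
    exact Complex.ext (by simp) (by simp [a2])
  have h2 : ∀ y ∈ M, 2 * ⟪y ξ, b ξ⟫_ℂ = l * ⟪y ξ, x ξ⟫_ℂ + conj l * ⟪x ξ, star y ξ⟫_ℂ :=
    fun y hy => by
    obtain ⟨p, hp, q, hq, hp', hq', rfl⟩ := exists_sa_decomp _ hy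
    simp only [star_add, star_smul, hp', hq', add_apply, smul_apply, inner_add_left,
      inner_add_right, inner_smul_left, inner_smul_right, Complex.star_def, Complex.conj_I]
    linear_combination h1 p hp hp' - Complex.I * h1 q hq hq'
  have s2 : star (2 - rhoF) = 2 - rhoF := by rw [star_sub, star_ofNat, star_rhoF]
  have h3 : ∀ y ∈ M.commutant, star y = y → ∀ z ∈ M.commutant, star z = z →
      2 * ⟪z ξ, D.apply tauF (jc J b (D.apply tauF (y ξ)))⟫_ℂ =
        l * ⟪z ξ, D.apply rhoF (x (D.apply (2 - rhoF) (y ξ)))⟫_ℂ +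
          conj l * ⟪z ξ, D.apply (2 - rhoF) (x (D.apply rhoF (y ξ)))⟫_ℂ :=
    fun y hy hy' z hz hz' => by
    obtain ⟨p, hp, hp', p1, p2⟩ := exists_lift hs S hy hy'
    obtain ⟨q, hq, hq', q1, q2⟩ := exists_lift hs S hz hz'
    have key := h2 _ (mul_mem hq hp)
    have c1 := C_orb S (mul_mem hq hx)
    have c2 := C_orb S (mul_mem hp hx)
    simp only [star_mul, hp', hq', hx', mul_apply_eq_comp] at key c1 c2
    have e1 : ⟪q (p ξ), b ξ⟫_ℂ = ⟪z ξ, D.apply tauF (jc J b (D.apply tauF (y ξ)))⟫_ℂ := by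
      rw [inner_sa hq', ← comm_of_mem M hq hb, inner_app_right, star_tauF, jc_apply, S.inner_J',
        ← p2, ← q2, inner_sa hb']
    have e2 : ⟪q (p ξ), x ξ⟫_ℂ = ⟪z ξ, D.apply rhoF (x (D.apply (2 - rhoF) (y ξ)))⟫_ℂ := by
      rw [inner_sa hq', p2, S.J_tau, inner_app_left, star_tauF, S.inner_J, c1, inner_app_left, s2,
        inner_sa hx', q1, inner_app_left, star_rhoF]
    have e3 : ⟪x ξ, p (q ξ)⟫_ℂ = ⟪z ξ, D.apply (2 - rhoF) (x (D.apply rhoF (y ξ)))⟫_ℂ := by
      rw [← inner_sa hp', q2, S.J_tau, inner_app_right, star_tauF, S.inner_J', c2, p1]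
    rw [← e1, ← e2, ← e3, key]
  refine ⟨x, hx, fun η ζ => ?_⟩
  induction η using hs.cyc_commutant.induction with
  | hp => exact isClosed_eq (by fun_prop) (by fun_prop)
  | ih z hz => ?_
  induction ζ using hs.cyc_commutant.induction with
  | hp => exact isClosed_eq (by fun_prop) (by fun_prop)
  | ih y hy => ?_
  obtain ⟨p, hp, q, hq, hp', hq', rfl⟩ := exists_sa_decomp _ hy
  obtain ⟨r, hr, s, hs, hr', hs', rfl⟩ := exists_sa_decomp _ hz
  simp only [add_apply, smul_apply, map_add, map_smul, inner_add_left, inner_add_right,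
    inner_smul_left, inner_smul_right, Complex.conj_I]
  linear_combination h3 p hp hp' r hr hr' + Complex.I * h3 q hq hq' r hr hr'
    - Complex.I * h3 p hp hp' s hs hs' - Complex.I * Complex.I * h3 q hq hq' s hs hs'

lemma exists_smear_mem (hs : Sep M ξ) (S : Std (saK M ξ) D J) {b : H →L[ℂ] H}
    (hb : b ∈ M.commutant) (hb' : star b = b) {φ : ℝ} (hφ : |φ| < Real.pi) :
    ∃ W ∈ M, ∀ η ζ, ⟪η, W ζ⟫_ℂ = ∫ t, kap φ t * ⟪η, D.wave (-t) (jc J b (D.wave t ζ))⟫_ℂ := by
  obtain ⟨W, hW⟩ := exists_smear D (integrable_kap hφ) (jc J b)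
  obtain ⟨c, hc⟩ := strip hφ
  have hl : 0 < (Complex.exp (Complex.I * (φ / 2))).re := by
    rw [mul_comm, show (φ / 2 : ℂ) = ((φ / 2 : ℝ) : ℂ) by push_cast; rfl,
      Complex.exp_ofReal_mul_I_re]
    have := abs_lt.1 hφ
    exact Real.cos_pos_of_mem_Ioo ⟨by linarith, by linarith⟩
  obtain ⟨x, hx, key⟩ := key_identity hs S hb hb' hl
  have hcl : conj (Complex.exp (Complex.I * (φ / 2))) = Complex.exp (-(Complex.I * (φ / 2))) := by
    rw [← Complex.exp_conj]; simp [Complex.conj_ofNat]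
  rw [hcl] at key
  have main : W - (c / 2) • x = 0 := by
    refine eq_zero_of_compress D fun F G hF hG η ζ => ?_
    obtain ⟨B1, hB1⟩ := norm_mulExpC_le F hF (1 / 2)
    obtain ⟨B2, hB2⟩ := norm_mulExpC_le G hG (1 / 2)
    have h1 := hc (fun z => ⟪η, D.apply (mulExpC F hF (-z)) (x (D.apply (mulExpC G hG z) ζ))⟫_ℂ)
      ?_ (‖η‖ * (B1 * (‖x‖ * (B2 * ‖ζ‖)))) ?_
    · have h0 : ∀ (F : ℝ →ᵇ ℂ) hF, mulExpC F hF 0 = F := fun F hF => by ext u; simp
      rw [neg_zero, h0, h0] at h1
      rw [sub_apply, smul_apply, map_sub, map_smul, inner_sub_right, inner_smul_right,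
        inner_app_right, hW, div_mul_eq_mul_div, ← h1, sub_eq_zero, ← integral_div]
      congr 1
      ext t
      have hτ : ∀ u, tauF u = rhoF u * Complex.exp (1 / 2 * u) := fun u => by
        rw [tauF_eq, Complex.ofReal_exp]; congr 2; push_cast; ring
      have hτ' : ∀ u, 2 - rhoF u = tauF u * Complex.exp (1 / 2 * u) := fun u => by
        rw [two_sub_rhoF, Complex.ofReal_exp]; congr 2; push_cast; ring
      have f1 : ∀ (F : ℝ →ᵇ ℂ) hF (s : ℝ) (z : ℂ), z = Complex.I * s + 1 / 2 →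
          mulExpC F hF z = (2 - rhoF) * (character s * divF F hF tauF tauF_ne) := by
        rintro F hF s _ rfl
        ext u
        simp only [mulExpC_apply, BoundedContinuousFunction.mul_apply, character_apply,
          divF_apply, BoundedContinuousFunction.sub_apply, add_mul, Complex.exp_add]
        erw [hτ']
        have := tauF_ne u
        field_simp
        push_cast
        ring_nf
      have f2 : ∀ (F : ℝ →ᵇ ℂ) hF (s : ℝ) (z : ℂ), z = Complex.I * s - 1 / 2 →
          mulExpC F hF z = rhoF * (character s * divF F hF tauF tauF_ne) := by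
        rintro F hF s _ rfl
        ext u
        simp only [mulExpC_apply, BoundedContinuousFunction.mul_apply, character_apply,
          divF_apply, sub_mul, Complex.exp_sub, hτ]
        have := rhoF_ne u
        field_simp
        push_cast
        ring_nf
      have f3 : ∀ (F : ℝ →ᵇ ℂ) hF (s : ℝ) (v : H), D.wave s (D.apply F v) =
          D.apply tauF (D.apply (character s * divF F hF tauF tauF_ne) v) := fun F hF s v => by
        rw [← app_mul_apply, mul_left_comm, mul_comm tauF, divF_mul, app_mul_apply]; rfl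
      have f4 : ∀ (f g : ℝ →ᵇ ℂ) (v : H),
          ⟪η, D.apply (f * g) v⟫_ℂ = ⟪D.apply (star g) η, D.apply f v⟫_ℂ := fun f g v => by
        rw [mul_comm, app_mul_apply, inner_app_right]
      rw [f1 G hG t _ rfl, f2 G hG t _ rfl, f2 F hF (-t) _ (by push_cast; ring),
        f1 F hF (-t) _ (by push_cast; ring), f4, f4, app_mul_apply D rhoF,
        app_mul_apply D (2 - rhoF), ← key,
        ← f3, ← inner_app_right, ← inner_app_right, app_comm _ (_ * _), ← f3,
        app_wave_comm D F]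
      ring
    · let A := (D.apply.toLinearMap.mkContinuous 1 fun f => by simpa using norm_app_le D f)
      intro z
      have d1 : DifferentiableAt ℂ (fun z => A (mulExpC F hF (-z))) z :=
        A.differentiableAt.comp z
          (((differentiable_mulExpC F hF) _).comp z differentiableAt_id.neg)
      have d2 : DifferentiableAt ℂ (fun z => x (appAt D ζ (mulExpC G hG z))) z :=
        x.differentiableAt.comp z ((appAt D ζ).differentiableAt.comp z
          (differentiable_mulExpC G hG z))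
      exact (innerSL ℂ η).differentiableAt.comp z (d1.clm_apply d2)
    · intro z hz
      refine (norm_inner_le_norm _ _).trans ?_
      have b1 := hB1 (-z) (by simpa using hz)
      have b2 := hB2 z hz
      have := (norm_nonneg _).trans b1
      gcongr
      refine (norm_app_apply_le _ _ _).trans ?_
      gcongr
      refine (x.le_opNorm _).trans ?_
      gcongr
      refine (norm_app_apply_le _ _ _).trans ?_
      gcongr
  exact ⟨W, sub_eq_zero.1 main ▸ vn_smul_mem M _ hx, hW⟩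

lemma flow_jc_mem (hs : Sep M ξ) (S : Std (saK M ξ) D J) {b : H →L[ℂ] H}
    (hb : b ∈ M.commutant) (t : ℝ) : D.wave t * jc J b * D.wave (-t) ∈ M := by
  have main : ∀ b ∈ M.commutant, star b = b → D.wave t * jc J b * D.wave (-t) ∈ M := by
    intro b hb hb'
    refine mem_of_comm M _ fun y hy ζ => ext_inner_left ℂ fun η => ?_
    have hc : ∀ η ζ : H, Continuous fun t => ⟪η, D.wave (-t) (jc J b (D.wave t ζ))⟫_ℂ :=
      fun η ζ => by
      simp only [inner_wave_right]
      exact ((continuous_wave D η).comp (by fun_prop)).inner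
        ((jc J b).continuous.comp (continuous_wave D ζ))
    have hb : ∀ (η ζ : H) t, ‖⟪η, D.wave (-t) (jc J b (D.wave t ζ))⟫_ℂ‖ ≤
        ‖η‖ * (‖jc J b‖ * ‖ζ‖) := fun η ζ t => by
      refine (norm_inner_le_norm _ _).trans ?_
      gcongr
      rw [norm_wave_apply]
      exact (ContinuousLinearMap.le_opNorm _ _).trans (by rw [norm_wave_apply])
    have := laplace_unique ((hc (star y η) ζ).sub (hc η (y ζ)))
      (fun t => (norm_sub_le _ _).trans (add_le_add (hb _ _ t) (hb _ _ t))) (fun φ hφ => ?_) (-t)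
    · rw [Pi.sub_apply, neg_neg, sub_eq_zero, inner_star_left] at this
      exact this
    obtain ⟨W, hW, h⟩ := exists_smear_mem hs S ‹_› hb' hφ
    have hi : ∀ η ζ : H, Integrable fun t =>
        kap φ t * ⟪η, D.wave (-t) (jc J b (D.wave t ζ))⟫_ℂ := fun η ζ =>
      (integrable_kap hφ).mul_bdd (hc η ζ).aestronglyMeasurable (Eventually.of_forall (hb η ζ))
    simp only [Pi.sub_apply, mul_sub]
    rw [integral_sub (hi _ _) (hi _ _), ← h, ← h, inner_star_left, comm_of_mem M hW hy, sub_self]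
  obtain ⟨p, hp, q, hq, hp', hq', rfl⟩ := exists_sa_decomp _ hb
  have : D.wave t * jc J (p + Complex.I • q) * D.wave (-t) = D.wave t * jc J p * D.wave (-t) -
      Complex.I • (D.wave t * jc J q * D.wave (-t)) := by
    ext v; simp [LinearIsometryEquiv.map_smulₛₗ, sub_eq_add_neg]
  rw [this]
  exact sub_mem (main p hp hp') (vn_smul_mem M _ (main q hq hq'))

lemma jc_mem (hs : Sep M ξ) (S : Std (saK M ξ) D J) {b : H →L[ℂ] H}
    (hb : b ∈ M.commutant) : jc J b ∈ M := by
  simpa [wave_zero] using flow_jc_mem hs S hb 0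

lemma jc_mem_commutant (hc : Cyc M ξ) (hs : Sep M ξ) (S : Std (saK M ξ) D J) {a : H →L[ℂ] H}
    (ha : a ∈ M) : jc J a ∈ M.commutant := by
  have main : ∀ x ∈ M, star x = x → jc J x ∈ M.commutant := by
    intro x hx hx'
    have h1 : ∀ y ∈ M, star y = y → ⟪y ξ, J (x ξ)⟫_ℂ = ⟪J (x ξ), y ξ⟫_ℂ := fun y hy hy' => by
      rw [← inner_conj_symm (J (x ξ)), eq_comm, Complex.conj_eq_iff_im]
      exact S.real _ (mem_saK ξ hy hy') _ (mem_saK ξ hx hx')
    have h2 : ∀ y ∈ M, ⟪star y ξ, J (x ξ)⟫_ℂ = ⟪J (x ξ), y ξ⟫_ℂ := fun y hy => by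
      obtain ⟨p, hp, q, hq, hp', hq', rfl⟩ := exists_sa_decomp _ hy
      simp [hp', hq', h1 p hp hp', inner_smul_left, h1 q hq hq']
    have h3 : ∀ y ∈ M, jc J x (y ξ) = y (J (x ξ)) := fun y hy => by
      rw [← S.J_J (jc J x (y ξ)), ← S.J_J (y (J (x ξ)))]
      congr 1
      refine hs.cyc_commutant.eq_of_inner fun b hb => ?_
      have := h2 _ (mul_mem (star_mem hy) (jc_mem hs S hb))
      rw [star_mul, star_star, S.star_jc] at this
      simp only [mul_apply_eq_comp, jc_apply, J_vac S] at this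
      rw [S.inner_JJ, inner_star_right, inner_star_right, comm_of_mem M hx hb, inner_sa hx'] at this
      rw [jc_apply, S.J_J, this, S.inner_J']
    rw [VonNeumannAlgebra.mem_commutant_iff]
    intro y hy
    ext v
    refine hc.ext (by fun_prop) (by fun_prop) (fun z hz => ?_) v
    rw [mul_apply_eq_comp, mul_apply_eq_comp, h3 z hz, ← mul_apply_eq_comp y z ξ,
      h3 _ (mul_mem hy hz), mul_apply_eq_comp]
  obtain ⟨p, hp, q, hq, hp', hq', rfl⟩ := exists_sa_decomp _ ha
  have : jc J (p + Complex.I • q) = jc J p - Complex.I • jc J q := by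
    ext v; simp [LinearIsometryEquiv.map_smulₛₗ, sub_eq_add_neg]
  rw [this]
  exact sub_mem (main p hp hp') (vn_smul_mem _ _ (main q hq hq'))

end

/-- **Tomita–Takesaki theorem.** -/
theorem exists_modularDatum (M : VonNeumannAlgebra H) (ξ : H) (hξ : ‖ξ‖ = 1) (hc : Cyc M ξ)
    (hs : Sep M ξ) : ∃ S : ModularDatum H, S.M = M ∧ S.vac = ξ ∧
      (∀ a ∈ M, jc S.J a ∈ M.commutant) ∧ (∀ b ∈ M.commutant, jc S.J b ∈ M) ∧
      Std (saK M ξ) S.D S.J := by
  obtain ⟨D, J, S⟩ := exists_std_saK hc hs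
  refine ⟨⟨M, ξ, hξ, hc, hs, D, fun t a ha => ?_, J, S.J_J, tomita_std S⟩, rfl, rfl,
    fun a ha => jc_mem_commutant hc hs S ha, fun b hb => jc_mem hs S hb, S⟩
  simpa only [S.jc_jc] using flow_jc_mem hs S (jc_mem_commutant hc hs S ha) t

end Crest.Agent.TT
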