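import Crest.Agent.Lib.TT.Std
import Crest.Agent.R084.Modular

/-! Tomita–Takesaki, part 3: cyclic/separating vectors and the linear Radon–Nikodym lemma. -/

set_option autoImplicit false

namespace Crest.Agent.TT

open Crest.OpAlg Crest.Agent.R084 Filter
open scoped Topology InnerProductSpace ComplexConjugate

variable {H : Type*} [NormedAddCommGroup H] [InnerProductSpace ℂ H] [CompleteSpace H]

/-- `ξ` is cyclic for `M`. -/
abbrev Cyc (M : VonNeumannAlgebra H) (ξ : H) : Prop :=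
  Dense (Set.range fun a : M => (a : H →L[ℂ] H) ξ)

/-- `ξ` is separating for `M`. -/
abbrev Sep (M : VonNeumannAlgebra H) (ξ : H) : Prop :=
  ∀ a : H →L[ℂ] H, a ∈ M → a ξ = 0 → a = 0

lemma vn_smul_mem (M : VonNeumannAlgebra H) (c : ℂ) {a : H →L[ℂ] H} (ha : a ∈ M) : c • a ∈ M :=
  M.toStarSubalgebra.smul_mem ha c

lemma vn_isClosed (M : VonNeumannAlgebra H) : IsClosed (M : Set (H →L[ℂ] H)) := by
  rw [← M.centralizer_centralizer]
  exact Set.isClosed_centralizer _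

lemma vn_cfc_mem (M : VonNeumannAlgebra H) (f : ℝ → ℝ) {a : H →L[ℂ] H} (ha : a ∈ M) :
    cfc f a ∈ M :=
  haveI : IsClosed (M.toStarSubalgebra : Set (H →L[ℂ] H)) := vn_isClosed M
  cfc_mem (𝕜' := ℂ) (s := M.toStarSubalgebra) f ha

lemma Cyc.induction {M : VonNeumannAlgebra H} {ξ : H} (h : Cyc M ξ) {p : H → Prop}
    (hp : IsClosed {x | p x}) (ih : ∀ a ∈ M, p (a ξ)) (x : H) : p x :=
  DenseRange.induction_on (p := p) h x hp fun a => ih a a.2

lemma Cyc.ext {M : VonNeumannAlgebra H} {ξ : H} (h : Cyc M ξ) {E : Type*} [TopologicalSpace E]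
    [T2Space E] {A B : H → E} (hA : Continuous A) (hB : Continuous B)
    (hAB : ∀ a ∈ M, A (a ξ) = B (a ξ)) (x : H) : A x = B x :=
  h.induction (isClosed_eq hA hB) hAB x

lemma Cyc.eq_of_inner {M : VonNeumannAlgebra H} {ξ : H} (h : Cyc M ξ) {x y : H}
    (hxy : ∀ a ∈ M, ⟪a ξ, x⟫_ℂ = ⟪a ξ, y⟫_ℂ) : x = y :=
  ext_inner_left ℂ (h.ext (A := fun v => ⟪v, x⟫_ℂ) (B := fun v => ⟪v, y⟫_ℂ) (by fun_prop)
    (by fun_prop) hxy)

lemma Cyc.sep_commutant {M : VonNeumannAlgebra H} {ξ : H} (h : Cyc M ξ) : Sep M.commutant ξ := by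
  intro b hb h0
  ext x
  refine h.ext (A := b) (B := fun _ => 0) b.continuous continuous_const (fun a ha => ?_) x
  rw [comm_of_mem M ha hb, h0, map_zero]

/-- The orbit map as a linear map. -/
noncomputable def orb (M : VonNeumannAlgebra H) (ξ : H) : M.toStarSubalgebra →ₗ[ℂ] H where
  toFun a := (a : H →L[ℂ] H) ξ
  map_add' _ _ := rfl
  map_smul' _ _ := rfl

/-- The projection onto the closure of `N ξ` lies in `N'`. -/
lemma exists_proj_orb (N : VonNeumannAlgebra H) (ξ : H) :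
    ∃ p ∈ N.commutant, IsStarProjection p ∧ (∀ a ∈ N, p (a ξ) = a ξ) ∧
      ∀ x, p x ∈ closure (Set.range fun a : N => (a : H →L[ℂ] H) ξ) := by
  let E : Submodule ℂ H := (LinearMap.range (orb N ξ)).topologicalClosure
  have hE : ∀ x, x ∈ E ↔ x ∈ closure (Set.range fun a : N => (a : H →L[ℂ] H) ξ) := fun x => Iff.rfl
  have hinv : ∀ a ∈ N, ∀ x ∈ E, a x ∈ E := fun a ha x hx => by
    rw [hE] at hx ⊢
    refine map_mem_closure a.continuous hx ?_
    rintro _ ⟨b, rfl⟩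
    exact ⟨⟨a * b, mul_mem ha b.2⟩, rfl⟩
  refine ⟨E.starProjection, ?_, isStarProjection_starProjection, fun a ha =>
    Submodule.starProjection_eq_self_iff.2 ((hE _).2 (subset_closure ⟨⟨a, ha⟩, rfl⟩)),
    fun x => E.starProjection_apply_mem x⟩
  rw [VonNeumannAlgebra.mem_commutant_iff]
  intro a ha
  ext x
  rw [mul_apply_eq_comp, mul_apply_eq_comp]
  symm
  refine Submodule.eq_starProjection_of_mem_orthogonal
    (hinv a ha _ (E.starProjection_apply_mem x)) ?_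
  rw [← map_sub, Submodule.mem_orthogonal]
  intro v hv
  rw [← ContinuousLinearMap.adjoint_inner_left, ← ContinuousLinearMap.star_eq_adjoint]
  exact Submodule.inner_right_of_mem_orthogonal (hinv _ (star_mem ha) v hv)
    (E.sub_starProjection_mem_orthogonal x)

lemma Sep.cyc_commutant {M : VonNeumannAlgebra H} {ξ : H} (h : Sep M ξ) : Cyc M.commutant ξ := by
  obtain ⟨p, hp, -, h1, h2⟩ := exists_proj_orb M.commutant ξ
  rw [M.commutant_commutant] at hp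
  have : 1 - p = 0 := h _ (sub_mem (one_mem _) hp) (by
    have := h1 1 (one_mem _)
    rw [one_apply_eq_self] at this
    rw [sub_apply, one_apply_eq_self, this, sub_self])
  intro x
  have h3 := h2 x
  rwa [← sub_eq_zero.1 this, one_apply_eq_self] at h3

/-- Bounded vectors come from the algebra. -/
lemma exists_of_bounded {M : VonNeumannAlgebra H} {ξ η : H} (h : Cyc M.commutant ξ) {c : ℝ}
    (hc : 0 ≤ c) (hη : ∀ y ∈ M.commutant, ‖y η‖ ≤ c * ‖y ξ‖) :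
    ∃ x ∈ M, ‖x‖ ≤ c ∧ ∀ y ∈ M.commutant, x (y ξ) = y η := by
  have hd : DenseRange (orb M.commutant ξ) := h
  have hb : ∀ y, ‖orb M.commutant η y‖ ≤ c * ‖orb M.commutant ξ y‖ := fun y => hη y y.2
  have key : ∀ y ∈ M.commutant, (orb M.commutant η).extendOfNorm (orb M.commutant ξ) (y ξ) = y η :=
    fun y hy => LinearMap.extendOfNorm_eq hd ⟨c, hb⟩ ⟨y, hy⟩
  refine ⟨(orb M.commutant η).extendOfNorm (orb M.commutant ξ), ?_,
    ContinuousLinearMap.opNorm_le_bound _ hc (LinearMap.norm_extendOfNorm_apply_le hd c hb), key⟩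
  refine mem_of_comm M _ fun y hy => h.ext (by fun_prop) (by fun_prop) fun z hz => ?_
  rw [key z hz, ← mul_apply_eq_comp y z, ← mul_apply_eq_comp y z, key _ (mul_mem hy hz)]

/-- The real subspace `M_sa ξ`. -/
def saOrb (M : VonNeumannAlgebra H) (ξ : H) : Submodule ℝ H where
  carrier := {v | ∃ a ∈ M, star a = a ∧ a ξ = v}
  add_mem' := by
    rintro _ _ ⟨a, ha, ha', rfl⟩ ⟨b, hb, hb', rfl⟩
    exact ⟨a + b, add_mem ha hb, by rw [star_add, ha', hb'], rfl⟩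
  zero_mem' := ⟨0, zero_mem _, star_zero _, rfl⟩
  smul_mem' := by
    rintro c _ ⟨a, ha, ha', rfl⟩
    exact ⟨(c : ℂ) • a, vn_smul_mem M _ ha, by simp [ha'], by simp⟩

/-- The closed real subspace `K`. -/
noncomputable def saK (M : VonNeumannAlgebra H) (ξ : H) : Submodule ℝ H :=
  (saOrb M ξ).topologicalClosure

lemma isClosed_saK (M : VonNeumannAlgebra H) (ξ : H) : IsClosed (saK M ξ : Set H) :=
  Submodule.isClosed_topologicalClosure _

lemma mem_saK {M : VonNeumannAlgebra H} (ξ : H) {a : H →L[ℂ] H} (ha : a ∈ M) (ha' : star a = a) :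
    a ξ ∈ saK M ξ := subset_closure ⟨a, ha, ha', rfl⟩

lemma saK_induction {M : VonNeumannAlgebra H} {ξ : H} {p : H → Prop}
    (hp : IsClosed {x | p x}) (ih : ∀ a ∈ M, star a = a → p (a ξ)) {x : H} (hx : x ∈ saK M ξ) :
    p x :=
  closure_minimal (s := (saOrb M ξ : Set H)) (t := {x | p x})
    (by rintro _ ⟨a, ha, ha', rfl⟩; exact ih a ha ha') hp hx

lemma inner_sa {a : H →L[ℂ] H} (ha : star a = a) (x y : H) : ⟪a x, y⟫_ℂ = ⟪x, a y⟫_ℂ := by
  conv_lhs => rw [← ha, ContinuousLinearMap.star_eq_adjoint, ContinuousLinearMap.adjoint_inner_left]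

lemma inner_star_left (a : H →L[ℂ] H) (x y : H) : ⟪star a x, y⟫_ℂ = ⟪x, a y⟫_ℂ := by
  rw [ContinuousLinearMap.star_eq_adjoint, ContinuousLinearMap.adjoint_inner_left]

lemma inner_star_right (a : H →L[ℂ] H) (x y : H) : ⟪x, star a y⟫_ℂ = ⟪a x, y⟫_ℂ := by
  rw [ContinuousLinearMap.star_eq_adjoint, ContinuousLinearMap.adjoint_inner_right]

lemma exists_sa_decomp (M : VonNeumannAlgebra H) {a : H →L[ℂ] H} (ha : a ∈ M) :
    ∃ h ∈ M, ∃ k ∈ M, star h = h ∧ star k = k ∧ a = h + Complex.I • k := by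
  refine ⟨(2⁻¹ : ℂ) • (a + star a), vn_smul_mem M _ (add_mem ha (star_mem ha)),
    (-(2⁻¹ * Complex.I) : ℂ) • (a - star a), vn_smul_mem M _ (sub_mem ha (star_mem ha)), ?_, ?_, ?_⟩
  · simp [add_comm]
  · simp only [star_smul, star_sub, star_star, star_neg, star_mul', Complex.star_def,
      Complex.conj_I, map_inv₀, Complex.conj_ofNat]
    module
  · rw [smul_smul, show Complex.I * -(2⁻¹ * Complex.I) = 2⁻¹ by
      linear_combination (-2⁻¹ : ℂ) * Complex.I_mul_I]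
    module

lemma im_inner_saK {M : VonNeumannAlgebra H} {ξ : H} {b : H →L[ℂ] H} (hb : b ∈ M.commutant)
    (hb' : star b = b) {k : H} (hk : k ∈ saK M ξ) : (⟪k, b ξ⟫_ℂ).im = 0 := by
  refine saK_induction (p := fun k => (⟪k, b ξ⟫_ℂ).im = 0)
    (isClosed_eq (by fun_prop) continuous_const) (fun a ha ha' => ?_) hk
  rw [← Complex.conj_eq_iff_im, inner_conj_symm, inner_sa ha', inner_sa hb', comm_of_mem M ha hb]

lemma isClosed_ball_orb {M : VonNeumannAlgebra H} {ξ : H} (h : Cyc M.commutant ξ) {c : ℝ}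
    (hc : 0 ≤ c) : IsClosed {v | ∃ a ∈ M, star a = a ∧ ‖a‖ ≤ c ∧ a ξ = v} := by
  refine isClosed_of_closure_subset fun v hv => ?_
  have h1 : ∀ y ∈ M.commutant, ‖y v‖ ≤ c * ‖y ξ‖ := fun y hy => by
    refine closure_minimal (t := {v | ‖y v‖ ≤ c * ‖y ξ‖}) ?_
      (isClosed_le (by fun_prop) continuous_const) hv
    rintro _ ⟨a, ha, -, hac, rfl⟩
    change ‖y (a ξ)‖ ≤ _
    rw [comm_of_mem M ha hy]
    exact (a.le_opNorm _).trans (by gcongr)
  have h2 : ∀ y ∈ M.commutant, ∀ z ∈ M.commutant, ⟪y v, z ξ⟫_ℂ = ⟪y ξ, z v⟫_ℂ :=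
    fun y hy z hz => by
    refine closure_minimal (t := {v | ⟪y v, z ξ⟫_ℂ = ⟪y ξ, z v⟫_ℂ}) ?_
      (isClosed_eq (by fun_prop) (by fun_prop)) hv
    rintro _ ⟨a, ha, ha', -, rfl⟩
    change ⟪y (a ξ), z ξ⟫_ℂ = ⟪y ξ, z (a ξ)⟫_ℂ
    rw [comm_of_mem M ha hy, comm_of_mem M ha hz, inner_sa ha']
  obtain ⟨x, hx, hxc, key⟩ := exists_of_bounded h hc h1
  refine ⟨x, hx, ?_, hxc, by simpa using key 1 (one_mem _)⟩
  ext w
  refine h.ext (by fun_prop) (by fun_prop) (fun z hz => h.eq_of_inner fun y hy => ?_) w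
  rw [inner_star_right, key y hy, key z hz, h2 y hy z hz]

open ClosedSubmodule in
lemma exists_nearest {V : Set H} (hne : V.Nonempty) (hc : IsClosed V) (hconv : Convex ℝ V)
    (v : H) : ∃ w ∈ V, ∀ z ∈ V, (⟪v - w, z - w⟫_ℂ).re ≤ 0 := by
  obtain ⟨w, hw, h⟩ := exists_norm_eq_iInf_of_complete_convex hne hc.isComplete hconv v
  exact ⟨w, hw, (norm_eq_iInf_iff_real_inner_le_zero hconv hw).1 h⟩

/-- `Re ⟪h ξ, b ξ⟫ ≤ ‖b‖ (⟪h ξ, u ξ⟫ + ε ‖ξ‖²)` for a suitable contraction `u`. -/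
lemma exists_sign {M : VonNeumannAlgebra H} (ξ : H) {h b : H →L[ℂ] H} (hh : h ∈ M)
    (hh' : star h = h) (hb : b ∈ M.commutant) (hb' : star b = b) {ε : ℝ} (hε : 0 < ε) :
    ∃ u ∈ M, star u = u ∧ ‖u‖ ≤ 1 ∧ (⟪h ξ, u ξ⟫_ℂ).im = 0 ∧
      (⟪h ξ, b ξ⟫_ℂ).re ≤ ‖b‖ * ((⟪h ξ, u ξ⟫_ℂ).re + ε * ‖ξ‖ ^ 2) := by
  have hs : IsSelfAdjoint h := hh'
  have hbs : IsSelfAdjoint b := hb'
  let s : ℝ → ℝ := fun t => max (-1) (min 1 (t / ε))
  have hsc : Continuous s := by fun_prop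
  have hs1 : ∀ t, |s t| ≤ 1 := fun t =>
    abs_le.2 ⟨le_max_left _ _, max_le (by norm_num) (min_le_left _ _)⟩
  have hs2 : ∀ t, |t| ≤ t * s t + ε := fun t => by
    have e : t = ε * (t / ε) := by field_simp
    simp only [s]
    generalize t / ε = r at e
    subst e
    rw [abs_mul, abs_of_pos hε, mul_assoc, ← mul_add_one]
    refine mul_le_mul_of_nonneg_left ?_ hε.le
    rcases le_total 1 r with h1 | h1
    · rw [min_eq_left h1, max_eq_right (by norm_num), abs_of_pos (by linarith)]; linarith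
    · rw [min_eq_right h1]
      rcases le_total (-1) r with h2 | h2
      · rw [max_eq_right h2]; nlinarith [abs_le.2 ⟨h2, h1⟩]
      · rw [max_eq_left h2, abs_of_neg (by linarith)]; linarith
  have hcomm : Commute h b := VonNeumannAlgebra.mem_commutant_iff.1 hb h hh
  have us : IsSelfAdjoint (cfc s h) := cfc_predicate s h
  have hhu : Commute h (cfc s h) := ((Commute.refl h).cfc_real s).symm
  refine ⟨cfc s h, vn_cfc_mem M s hh, us, norm_cfc_le zero_le_one fun t _ => hs1 t, ?_, ?_⟩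
  · rw [← Complex.conj_eq_iff_im, inner_conj_symm, inner_sa hh', inner_sa us,
      ← mul_apply_eq_comp, ← mul_apply_eq_comp, hhu.eq]
  let p := cfc (fun t : ℝ => (t * s t + ε + t) / 2) h
  let n := cfc (fun t : ℝ => (t * s t + ε - t) / 2) h
  have hp : 0 ≤ p := cfc_nonneg fun t _ => by linarith [hs2 t, neg_abs_le t]
  have hn : 0 ≤ n := cfc_nonneg fun t _ => by linarith [hs2 t, le_abs_self t]
  have e0 : cfc (fun t : ℝ => t * s t + ε) h = h * cfc s h + algebraMap ℝ _ ε := by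
    rw [cfc_add_const ε (fun t => t * s t) h, cfc_mul (fun t => t) s h, cfc_id' ℝ h]
  have e1 : p + n = h * cfc s h + algebraMap ℝ _ ε := by
    rw [← e0, ← cfc_add h _ _]
    congr 1; ext t; ring
  have e2 : p - n = h := by
    rw [← cfc_sub _ _ h]
    conv_rhs => rw [← cfc_id' ℝ h]
    congr 1; ext t; ring
  have b1 : 0 ≤ algebraMap ℝ _ ‖b‖ - b := sub_nonneg.2 hbs.le_algebraMap_norm_self
  have b2 : 0 ≤ algebraMap ℝ _ ‖b‖ + b := by
    have := sub_nonneg.2 hbs.neg.le_algebraMap_norm_self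
    rwa [norm_neg, sub_neg_eq_add] at this
  have c1 : Commute p (algebraMap ℝ _ ‖b‖ - b) :=
    (Algebra.commutes _ _).symm |> fun e => Commute.sub_right e (hcomm.cfc_real _)
  have c2 : Commute n (algebraMap ℝ _ ‖b‖ + b) :=
    (Algebra.commutes _ _).symm |> fun e => Commute.add_right e (hcomm.cfc_real _)
  have key := add_nonneg (c1.mul_nonneg hp b1) (c2.mul_nonneg hn b2)
  have e3 : p * (algebraMap ℝ _ ‖b‖ - b) + n * (algebraMap ℝ _ ‖b‖ + b) =
      (p + n) * algebraMap ℝ _ ‖b‖ - (p - n) * b := by noncomm_ring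
  rw [e3, e1, e2, ← Algebra.commutes, ← Algebra.smul_def, Algebra.algebraMap_eq_smul_one] at key
  have k2 := ((ContinuousLinearMap.nonneg_iff_isPositive _).1 key).re_inner_nonneg_right ξ
  have sq : (⟪ξ, ξ⟫_ℂ).re = ‖ξ‖ ^ 2 := inner_self_eq_norm_sq (𝕜 := ℂ) ξ
  simp only [sub_apply, smul_apply, add_apply, mul_apply_eq_comp, one_apply_eq_self,
    ← Complex.coe_smul, inner_sub_right, inner_smul_right, inner_add_right, RCLike.re_to_complex,
    Complex.sub_re, Complex.re_ofReal_mul, Complex.add_re, sq] at k2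
  rw [inner_sa hh', inner_sa hh']
  linarith

/-- Linear Radon–Nikodym lemma (Sakai; Rieffel–van Daele 4.3). -/
theorem radon_nikodym {M : VonNeumannAlgebra H} {ξ : H} (hsep : Sep M ξ) {b : H →L[ℂ] H}
    (hb : b ∈ M.commutant) (hb' : star b = b) {l : ℂ} (hl : 0 < l.re) :
    ∃ x ∈ M, star x = x ∧ ∀ k ∈ saK M ξ, (⟪k, l • x ξ⟫_ℂ).re = (⟪k, b ξ⟫_ℂ).re := by
  obtain ⟨P, P1, P2, P3⟩ := exists_proj (saK M ξ) (isClosed_saK M ξ)
  have sq : ∀ x : H, (⟪x, x⟫_ℂ).re = ‖x‖ ^ 2 := fun x => inner_self_eq_norm_sq (𝕜 := ℂ) x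
  have reP : ∀ k ∈ saK M ξ, ∀ v, (⟪k, P v⟫_ℂ).re = (⟪k, v⟫_ℂ).re := fun k hk v => by
    rw [← P3, P2 k hk]
  set c : ℝ := ‖b‖ / l.re with hc
  have hc0 : 0 ≤ c := by positivity
  have : CompleteSpace (saK M ξ) := (isClosed_saK M ξ).completeSpace_coe
  let g : saK M ξ →L[ℝ] H :=
    P ∘L (l • (1 : H →L[ℂ] H)).restrictScalars ℝ ∘L (saK M ξ).subtypeL
  have hg : ∀ k, g k = P (l • (k : H)) := fun _ => rfl
  have hanti : ∀ k : saK M ξ, ‖k‖ ≤ l.re⁻¹ * ‖g k‖ := fun k => by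
    have h1 := reP k k.2 (l • (k : H))
    rw [inner_smul_right, inner_self_eq_norm_sq_to_K, ← hg] at h1
    have h2 : (⟪(k : H), g k⟫_ℂ).re ≤ ‖k‖ * ‖g k‖ :=
      (Complex.re_le_norm _).trans (norm_inner_le_norm _ _)
    have h3 : (l * ((‖(k : H)‖ : ℂ)) ^ 2).re = l.re * ‖k‖ ^ 2 := by
      rw [← Complex.ofReal_pow, mul_comm, Complex.re_ofReal_mul, mul_comm]; rfl
    erw [h3] at h1
    rw [le_inv_mul_iff₀ hl]
    rcases (norm_nonneg k).eq_or_lt with h0 | h0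
    · rw [← h0, mul_zero]; exact norm_nonneg _
    · nlinarith
  have hemb : Topology.IsClosedEmbedding g :=
    (ContinuousLinearMap.antilipschitz_of_bound g (K := ⟨l.re⁻¹, by positivity⟩)
      hanti).isClosedEmbedding g.uniformContinuous
  let S : Set H := {v | ∃ a ∈ M, star a = a ∧ ‖a‖ ≤ c ∧ a ξ = v}
  have hSc : Convex ℝ S := by
    rintro _ ⟨a, ha, ha', hac, rfl⟩ _ ⟨a', hb, hb', hbc, rfl⟩ s t hs ht hst
    refine ⟨(s : ℂ) • a + (t : ℂ) • a', add_mem (vn_smul_mem M _ ha) (vn_smul_mem M _ hb),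
      by simp [ha', hb'], ?_, by simp⟩
    refine (norm_add_le _ _).trans ?_
    rw [norm_smul, norm_smul, Complex.norm_real, Complex.norm_real, Real.norm_of_nonneg hs,
      Real.norm_of_nonneg ht]
    calc s * ‖a‖ + t * ‖a'‖ ≤ s * c + t * c := by gcongr
      _ = c := by rw [← add_mul, hst, one_mul]
  obtain ⟨_, ⟨w, ⟨x, hx, hx', hxc, hxw⟩, rfl⟩, hw⟩ := exists_nearest
    (V := g '' ((↑) ⁻¹' S)) ⟨_, 0, ⟨0, zero_mem _, star_zero _, by simpa using hc0, rfl⟩, rfl⟩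
    (hemb.isClosedMap _ ((isClosed_ball_orb hsep.cyc_commutant hc0).preimage
      continuous_subtype_val))
    ((hSc.linear_preimage (saK M ξ).subtype).linear_image g.toLinearMap) (P (b ξ))
  set k := P (b ξ) - g w with hk
  have hkK : k ∈ saK M ξ := sub_mem (P1 _) (P1 _)
  have hk0 : k = 0 := by
    have key : ∀ η : ℝ, 0 < η → ‖k‖ ^ 2 ≤ η * (‖b ξ‖ + ‖l‖ * c * ‖ξ‖ + ‖b‖ * ‖ξ‖ ^ 2) := by
      intro η hη
      obtain ⟨_, ⟨h, hh, hh', rfl⟩, hd⟩ := Metric.mem_closure_iff.1 hkK η hη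
      rw [dist_eq_norm] at hd
      obtain ⟨u, hu, hu', hu1, him, hle⟩ := exists_sign ξ hh hh' hb hb' hη
      have hcu : ‖(c : ℂ) • u‖ ≤ c := by
        rw [norm_smul, Complex.norm_real, Real.norm_of_nonneg hc0]
        exact mul_le_of_le_one_right hc0 hu1
      have hcu' : star ((c : ℂ) • u) = (c : ℂ) • u := by simp [hu']
      have h1 := hw _ ⟨⟨((c : ℂ) • u) ξ, mem_saK ξ (vn_smul_mem M _ hu) hcu'⟩,
        ⟨_, vn_smul_mem M _ hu, hcu', hcu, rfl⟩, rfl⟩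
      rw [show g w = P (b ξ) - k by rw [hk, sub_sub_cancel], hg] at h1
      simp only [inner_sub_right, Complex.sub_re, reP k hkK, sq] at h1
      have h2 : (⟪h ξ, l • ((c : ℂ) • u) ξ⟫_ℂ).re = ‖b‖ * (⟪h ξ, u ξ⟫_ℂ).re := by
        rw [smul_apply, inner_smul_right, inner_smul_right, Complex.mul_re, Complex.re_ofReal_mul,
          Complex.im_ofReal_mul, him, hc]
        field_simp
        ring
      have h3 : ∀ v, |(⟪k, v⟫_ℂ).re - (⟪h ξ, v⟫_ℂ).re| ≤ η * ‖v‖ := fun v => by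
        rw [← Complex.sub_re, ← inner_sub_left]
        exact (Complex.abs_re_le_norm _).trans ((norm_inner_le_norm _ _).trans (by gcongr))
      have h4 := abs_le.1 (h3 (b ξ))
      have h5 := abs_le.1 (h3 (l • ((c : ℂ) • u) ξ))
      have h6 : ‖l • ((c : ℂ) • u) ξ‖ ≤ ‖l‖ * c * ‖ξ‖ := by
        rw [norm_smul, mul_assoc]
        gcongr
        exact (ContinuousLinearMap.le_opNorm _ _).trans (by gcongr)
      nlinarith [mul_le_mul_of_nonneg_left h6 hη.le]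
    rw [← norm_eq_zero, ← pow_eq_zero_iff two_ne_zero]
    refine le_antisymm (le_of_forall_pos_le_add fun ε hε => ?_) (sq_nonneg _)
    have hA : 0 ≤ ‖b ξ‖ + ‖l‖ * c * ‖ξ‖ + ‖b‖ * ‖ξ‖ ^ 2 := by positivity
    refine (key (ε / (‖b ξ‖ + ‖l‖ * c * ‖ξ‖ + ‖b‖ * ‖ξ‖ ^ 2 + 1)) (by positivity)).trans ?_
    rw [zero_add, div_mul_eq_mul_div, div_le_iff₀ (by positivity)]
    nlinarith
  refine ⟨x, hx, hx', fun k' hk' => ?_⟩
  rw [← reP k' hk', ← reP k' hk' (b ξ), sub_eq_zero.1 hk0, hg, hxw]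

end Crest.Agent.TT
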