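import Crest.Agent.Lib.TT.Calc

/-! Tomita–Takesaki, part 2: modular data of a standard real subspace (Rieffel–van Daele). -/

set_option autoImplicit false

namespace Crest.Agent.TT

open Crest.OpAlg Crest.OpAlg.LineCalculus Crest.Agent.R084 Filter
open scoped BoundedContinuousFunction Topology InnerProductSpace ComplexConjugate

variable {H : Type*} [NormedAddCommGroup H] [InnerProductSpace ℂ H] [CompleteSpace H]

lemma halfExp_iff (D : LineCalculus H) {x z : H} :
    D.HalfExp x z ↔ D.apply rhoF z = D.apply tauF x := by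
  refine ⟨fun h => h _ _ tauF_eq, fun h f g hfg => app_injective D rhoF_ne ?_⟩
  rw [app_comm, h, ← app_mul_apply, ← app_mul_apply]
  congr 2
  ext u
  simp only [BoundedContinuousFunction.mul_apply, hfg u, tauF_eq u]
  ring

lemma star_negF_rhoF : star (negF rhoF) = 2 - rhoF := by
  ext u
  change star (rhoF (-u)) = 2 - rhoF u
  rw [← rhoF_neg, rhoF_apply, Complex.star_def, Complex.conj_ofReal]

lemma star_negF_tauF : star (negF tauF) = tauF := by
  ext u
  change star (tauF (-u)) = tauF u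
  rw [tauF_neg, tauF_apply, Complex.star_def, Complex.conj_ofReal]

lemma negF_star (f : ℝ →ᵇ ℂ) : negF (star f) = star (negF f) := rfl

lemma app_two_sub (D : LineCalculus H) (x : H) :
    D.apply (2 - rhoF) x = (2 : ℂ) • x - D.apply rhoF x := by
  rw [map_sub, map_ofNat, sub_apply, two_smul, ← one_add_one_eq_two, add_apply, one_apply_eq_self]

lemma eq_of_re_inner {a b : ℂ} (h1 : a.re = b.re) (h2 : (Complex.I * a).re = (Complex.I * b).re) :
    a = b := Complex.ext h1 (by simpa using h2)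

/-- Modular data of the real subspace `K`. -/
structure Std (K : Submodule ℝ H) (D : LineCalculus H) (J : H ≃ₗᵢ⋆[ℂ] H) : Prop where
  J_J : ∀ x, J (J x) = x
  J_app : ∀ f x, J (D.apply f x) = D.apply (star (negF f)) (J x)
  inner_J : ∀ x y, ⟪J x, y⟫_ℂ = ⟪J y, x⟫_ℂ
  mem_iff : ∀ x, x ∈ K ↔ D.apply (2 - rhoF) x = J (D.apply tauF x)
  real : ∀ k ∈ K, ∀ k' ∈ K, (⟪k, J k'⟫_ℂ).im = 0
  perp : ∀ v, (∀ k ∈ K, (⟪k, v⟫_ℂ).im = 0) → D.apply rhoF v = J (D.apply tauF v)

open ClosedSubmodule in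
theorem exists_proj (K : Submodule ℝ H) (hK : IsClosed (K : Set H)) :
    ∃ P : H →L[ℝ] H, (∀ x, P x ∈ K) ∧ (∀ k ∈ K, P k = k) ∧
      ∀ x y, (⟪P x, y⟫_ℂ).re = (⟪x, P y⟫_ℂ).re := by
  have : CompleteSpace K := hK.completeSpace_coe
  exact ⟨K.starProjection, fun x => K.starProjection_apply_mem x,
    fun k hk => Submodule.starProjection_eq_self_iff.2 hk,
    fun x y => K.inner_starProjection_left_eq_right x y⟩

theorem exists_std (K : Submodule ℝ H) (hK : IsClosed (K : Set H))
    (h0 : ∀ x ∈ K, Complex.I • x ∈ K → x = 0) (h1 : ∀ x, (∀ k ∈ K, ⟪k, x⟫_ℂ = 0) → x = 0) :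
    ∃ D J, Std K D J := by
  obtain ⟨P, P1, P2, P3⟩ := exists_proj K hK
  have PP : ∀ x, P (P x) = P x := fun x => P2 _ (P1 x)
  have II : ∀ x : H, Complex.I • Complex.I • x = -x := fun x => by
    rw [smul_smul, Complex.I_mul_I, neg_one_smul]
  let mI : H →L[ℝ] H := (Complex.I • (1 : H →L[ℂ] H)).restrictScalars ℝ
  let Q : H →L[ℝ] H := -(mI ∘L P ∘L mI)
  have hQ : ∀ x, Q x = -(Complex.I • P (Complex.I • x)) := fun x => rfl
  have QQ : ∀ x, Q (Q x) = Q x := fun x => by
    rw [hQ, hQ, smul_neg, II, neg_neg, PP]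
  have Q3 : ∀ x y, (⟪Q x, y⟫_ℂ).re = (⟪x, Q y⟫_ℂ).re := fun x y => by
    have := P3 (Complex.I • x) (Complex.I • y)
    rw [hQ, hQ]
    simp only [inner_smul_left, inner_smul_right, inner_neg_left, inner_neg_right,
      Complex.conj_I] at this ⊢
    simpa using this
  have QI : ∀ x, Q (Complex.I • x) = Complex.I • P x := fun x => by
    rw [hQ, II, map_neg, smul_neg, neg_neg]
  have PI : ∀ x, P (Complex.I • x) = Complex.I • Q x := fun x => by
    rw [hQ, smul_neg, II, neg_neg]
  have dec : ∀ (c : ℂ) (x : H), c • x = c.re • x + c.im • Complex.I • x := fun c x => by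
    conv_lhs => rw [← Complex.re_add_im c]
    rw [add_smul, mul_smul, Complex.coe_smul, Complex.coe_smul]
  let R : H →L[ℂ] H :=
    { toFun := fun x => P x + Q x
      map_add' := fun x y => by simp only [map_add]; abel
      map_smul' := fun c x => by
        rw [RingHom.id_apply, dec c x, dec c (P x + Q x)]
        simp only [map_add, map_smul, QI, PI, smul_add]; abel
      cont := by fun_prop }
  have hR : ∀ x, R x = P x + Q x := fun _ => rfl
  let C : H →L[ℝ] H := P - Q
  have hC : ∀ x, C x = P x - Q x := fun _ => rfl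
  have CI : ∀ x, C (Complex.I • x) = -(Complex.I • C x) := fun x => by
    rw [hC, hC, QI, PI, smul_sub, neg_sub]
  have C3 : ∀ x y, (⟪C x, y⟫_ℂ).re = (⟪x, C y⟫_ℂ).re := fun x y => by
    simp only [hC, inner_sub_left, inner_sub_right, Complex.sub_re, P3, Q3]
  have R3 : ∀ x y, (⟪R x, y⟫_ℂ).re = (⟪x, R y⟫_ℂ).re := fun x y => by
    simp only [hR, inner_add_left, inner_add_right, Complex.add_re, P3, Q3]
  have Rsym : (R : H →ₗ[ℂ] H).IsSymmetric := fun x y => by
    refine eq_of_re_inner (R3 x y) ?_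
    have := R3 x (Complex.I • y)
    rwa [map_smul, inner_smul_right, inner_smul_right] at this
  have Rsa : IsSelfAdjoint R := ContinuousLinearMap.isSelfAdjoint_iff_isSymmetric.2 Rsym
  have sq : ∀ x : H, (⟪x, x⟫_ℂ).re = ‖x‖ ^ 2 := fun x => inner_self_eq_norm_sq (𝕜 := ℂ) x
  have q1 : ∀ x, (⟪R x, x⟫_ℂ).re = ‖P x‖ ^ 2 + ‖Q x‖ ^ 2 := fun x => by
    rw [hR, inner_add_left, Complex.add_re, ← sq, ← sq, ← P3 (P x), PP, ← Q3 (Q x), QQ]
  have q2 : ∀ x, (⟪(2 - R) x, x⟫_ℂ).re = ‖x - P x‖ ^ 2 + ‖x - Q x‖ ^ 2 := fun x => by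
    have a1 := P3 (P x) x
    have a2 := Q3 (Q x) x
    have a3 := P3 x x
    have a4 := Q3 x x
    rw [PP] at a1
    rw [QQ] at a2
    rw [sub_apply, ← one_add_one_eq_two, add_apply, one_apply_eq_self, hR, ← sq, ← sq]
    simp only [inner_sub_left, inner_sub_right, inner_add_left, Complex.add_re, Complex.sub_re]
    linarith
  have hsp : spectrum ℝ R ⊆ Set.Icc 0 2 := by
    have a1 : 0 ≤ R := (ContinuousLinearMap.nonneg_iff_isPositive R).2
      ⟨Rsym, fun x => by
        change 0 ≤ (⟪R x, x⟫_ℂ).re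
        rw [q1]; positivity⟩
    have a2 : 0 ≤ 2 - R := (ContinuousLinearMap.nonneg_iff_isPositive _).2
      ⟨ContinuousLinearMap.isSelfAdjoint_iff_isSymmetric.1 ((IsSelfAdjoint.ofNat 2).sub Rsa),
        fun x => by
        change 0 ≤ (⟪(2 - R) x, x⟫_ℂ).re
        rw [q2]; positivity⟩
    intro r hr
    refine ⟨spectrum_nonneg_of_nonneg a1 hr, ?_⟩
    refine (le_algebraMap_iff_spectrum_le (r := (2 : ℝ)) (a := R) Rsa).1 ?_ r hr
    rw [map_ofNat]
    exact sub_nonneg.1 a2
  have i1 : ∀ x, R x = 0 → x = 0 := fun x hx => by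
    have a := q1 x
    rw [hx, inner_zero_left, Complex.zero_re] at a
    have a1 : P x = 0 := by rw [← norm_eq_zero]; nlinarith [norm_nonneg (P x), sq_nonneg ‖Q x‖]
    have a2 : Q x = 0 := by rw [← norm_eq_zero]; nlinarith [norm_nonneg (Q x), sq_nonneg ‖P x‖]
    refine h1 x fun k hk => eq_of_re_inner ?_ ?_
    · rw [← P2 k hk, P3, a1, inner_zero_right]
    · rw [← inner_smul_right, ← P2 k hk, P3, PI, a2]; simp
  have i2 : ∀ x, (2 - R) x = 0 → x = 0 := fun x hx => by
    have a := q2 x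
    rw [hx, inner_zero_left, Complex.zero_re] at a
    have a1 : x - P x = 0 := by
      rw [← norm_eq_zero]; nlinarith [norm_nonneg (x - P x), sq_nonneg ‖x - Q x‖]
    have a2 : x - Q x = 0 := by
      rw [← norm_eq_zero]; nlinarith [norm_nonneg (x - Q x), sq_nonneg ‖x - P x‖]
    rw [sub_eq_zero] at a1 a2
    refine h0 x (a1 ▸ P1 x) ?_
    rw [a2, ← PI]
    exact P1 _
  obtain ⟨D, hD⟩ := exists_calc Rsa hsp i1 i2
  have R2 : ∀ x, D.apply (2 - rhoF) x = (2 : ℂ) • x - (P x + Q x) := fun x => by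
    rw [app_two_sub, hD, hR]
  have CD : ∀ f x, C (D.apply f x) = D.apply (star (negF f)) (C x) := fun f x => by
    refine inter_conj D (negD D) C CI (fun x => ?_) f x
    rw [negD_apply, ← star_rhoF, negF_star, star_negF_rhoF, star_rhoF, R2, hD, hR, hC, hC]
    simp only [map_add, map_sub, PP, QQ, two_smul]
    abel
  set T := D.apply tauF with hT
  have CC : ∀ x, C (C x) = T (T x) := fun x => by
    rw [hT, ← app_mul_apply, tauF_mul_tauF, app_mul_apply, R2, hD, map_sub, map_smul, hR, hR, hC,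
      hC]
    simp only [map_add, map_sub, PP, QQ, two_smul]
    abel
  have CT : ∀ x, C (T x) = T (C x) := fun x => by rw [hT, CD, star_negF_tauF]
  have Tsym : ∀ x y, ⟪T x, y⟫_ℂ = ⟪x, T y⟫_ℂ := fun x y => by
    rw [hT, inner_app_left, star_tauF]
  have nC : ∀ x, ‖C x‖ = ‖T x‖ := fun x => by
    refine (sq_eq_sq₀ (norm_nonneg _) (norm_nonneg _)).1 ?_
    rw [← sq, ← sq, C3, CC, Tsym]
  have dT : DenseRange T := app_denseRange D tauF_ne
  let C' : H →ₛₗ[starRingEnd ℂ] H :=
    { toFun := C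
      map_add' := C.map_add
      map_smul' := fun c x => by
        rw [dec c x, dec (starRingEnd ℂ c) (C x), map_add, map_smul, map_smul, CI]
        simp }
  let J0 : H →SL[starRingEnd ℂ] H := C'.extendOfNorm (T : H →ₗ[ℂ] H)
  have hJ : ∀ x, J0 (T x) = C x := fun x =>
    LinearMap.extendOfNorm_eq (f := C') (e := (T : H →ₗ[ℂ] H)) dT
      ⟨1, fun x => by rw [one_mul]; exact (nC x).le⟩ x
  have JJ : ∀ x, J0 (J0 x) = x := fun x => by
    refine dT.induction_on x (isClosed_eq (by fun_prop) continuous_id) fun y => ?_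
    refine dT.induction_on y (isClosed_eq (by fun_prop) (by fun_prop)) fun z => ?_
    rw [hJ, CT, hJ, CC]
  have nJ : ∀ x, ‖J0 x‖ = ‖x‖ := fun x =>
    dT.induction_on x (isClosed_eq (by fun_prop) (by fun_prop)) fun y => by rw [hJ, nC]
  let J : H ≃ₗᵢ⋆[ℂ] H :=
    { toFun := J0
      map_add' := J0.map_add
      map_smul' := J0.map_smulₛₗ
      invFun := J0
      left_inv := JJ
      right_inv := JJ
      norm_map' := nJ }
  have hJ' : ∀ x, J x = J0 x := fun _ => rfl
  have JD : ∀ f x, J0 (D.apply f x) = D.apply (star (negF f)) (J0 x) := fun f x =>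
    dT.induction_on x (isClosed_eq (by fun_prop) (by fun_prop)) fun y => by
      rw [hT, app_comm, ← hT, hJ, hJ, CD]
  have two : ∀ {x y : H}, (2 : ℂ) • x = (2 : ℂ) • y → x = y := fun h =>
    smul_right_injective H two_ne_zero h
  have hmem : ∀ x, x ∈ K ↔ D.apply (2 - rhoF) x = C x := fun x => by
    rw [R2, hC]
    refine ⟨fun h => by rw [P2 x h, two_smul]; abel, fun h => ?_⟩
    have : x = P x := two (by rw [sub_eq_iff_eq_add.1 h, two_smul]; abel)
    exact this ▸ P1 x
  have J3 : ∀ x y, (⟪J0 x, y⟫_ℂ).re = (⟪J0 y, x⟫_ℂ).re := fun x y => by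
    refine dT.induction_on x (isClosed_eq (by fun_prop) (by fun_prop)) fun a => ?_
    refine dT.induction_on y (isClosed_eq (by fun_prop) (by fun_prop)) fun b => ?_
    rw [hJ, hJ, C3, CT, ← Tsym, ← inner_conj_symm, Complex.conj_re]
  refine ⟨D, J, JJ, JD, fun x y => ?_, fun x => by rw [hmem, hJ', hJ], fun k hk k' hk' => ?_,
    fun v hv => ?_⟩
  · refine eq_of_re_inner (J3 x y) ?_
    have := J3 x (Complex.I • y)
    rwa [inner_smul_right, J0.map_smulₛₗ, inner_smul_left, Complex.conj_conj] at this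
  · have a : Q (J0 k') = 0 := by
      refine two ?_
      have b1 : P (J0 k') + Q (J0 k') = J0 (C k') := by
        rw [← hR, ← hD, ← (hmem k').1 hk', JD]
        congr 2
        ext u
        change rhoF u = star (2 - rhoF (-u))
        rw [rhoF_neg, sub_sub_cancel, rhoF_apply, Complex.star_def, Complex.conj_ofReal]
      have b2 : P (J0 k') - Q (J0 k') = J0 (C k') := by
        rw [← hC, ← hJ, ← hJ, JJ, hT, JD, star_negF_tauF, JJ]
      rw [smul_zero, two_smul, ← sub_eq_zero.2 (b1.trans b2.symm)]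
      abel
    have b := Q3 (Complex.I • k) (J0 k')
    rw [a, QI, P2 k hk, inner_zero_right, inner_smul_left] at b
    rw [hJ']
    simpa using b
  · have a : Q v = 0 := by
      rw [← norm_eq_zero, ← pow_eq_zero_iff two_ne_zero, ← sq, ← Q3, QQ, hQ, inner_neg_left,
        inner_smul_left]
      simpa using hv _ (P1 (Complex.I • v))
    rw [hJ', hJ, hD, hR, hC, a, add_zero, sub_zero]

end Crest.Agent.TT
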